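import Vale.Agent.P318.R2.H867.Mono5

/-!
# Rational class functions: statements with an explicit condition, nilpotent and metabelian groups
-/

open Finset

open scoped commutatorElement

set_option linter.unusedSectionVars false

namespace Vale.Agent.P318.R2.H867

open Vale.Agent.P318.R2.H202

universe u

lemma NoncentralAbelian.of_equiv {Q Q' : Type u} [Group Q] [Group Q'] (e : Q ≃* Q')
    (h : NoncentralAbelian Q) : NoncentralAbelian Q' := by
  obtain ⟨A, hn, hA, a, ha, g, hg⟩ := h
  refine ⟨A.map e.toMonoidHom, hn.map _ e.surjective, ?_, e a, ⟨a, ha, rfl⟩, e g, ?_⟩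
  · rintro _ ⟨x, hx, rfl⟩ _ ⟨y, hy, rfl⟩
    change e x * e y = e y * e x
    rw [← map_mul, hA x hx y hy, map_mul]
  · rw [← map_mul, ← map_mul]
    exact fun h => hg (e.injective h)

/-- the condition in terms of quotients of subgroups -/
theorem secAb_of_sections {G : Type u} [Group G]
    (h : ∀ (H : Subgroup G) (N : Subgroup H) [N.Normal], (∃ a b : H ⧸ N, a * b ≠ b * a) →
      ∃ A : Subgroup (H ⧸ N), A.Normal ∧ (∀ a ∈ A, ∀ b ∈ A, a * b = b * a) ∧
        ∃ a ∈ A, ∃ g : H ⧸ N, g * a ≠ a * g) : SecAb G := by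
  intro H Q _ π hπ hab
  let e : (H ⧸ π.ker) ≃* Q := QuotientGroup.quotientKerEquivOfSurjective π hπ
  refine NoncentralAbelian.of_equiv e (h H π.ker ?_)
  obtain ⟨a, b, hab⟩ := hab
  refine ⟨e.symm a, e.symm b, ?_⟩
  rw [← map_mul, ← map_mul]
  exact fun h => hab (e.symm.injective h)

/-- the subgroup generated by the centre and one element of the second centre -/
lemma noncentralAbelian_of_mem {Q : Type u} [Group Q] {g : Q}
    (hg : ∀ x : Q, x * g * x⁻¹ * g⁻¹ ∈ Subgroup.center Q) (hg' : g ∉ Subgroup.center Q) :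
    NoncentralAbelian Q := by
  refine ⟨Subgroup.center Q ⊔ Subgroup.zpowers g, ?_, ?_, g, ?_, ?_⟩
  · refine ⟨fun n hn x => ?_⟩
    rw [Subgroup.mem_sup_of_normal_left] at hn
    obtain ⟨z, hz, y, hy, rfl⟩ := hn
    obtain ⟨m, rfl⟩ := Subgroup.mem_zpowers_iff.1 hy
    have h1 : x * g * x⁻¹ ∈ Subgroup.center Q ⊔ Subgroup.zpowers g := by
      have h2 : x * g * x⁻¹ = (x * g * x⁻¹ * g⁻¹) * g := by group
      rw [h2]
      exact Subgroup.mul_mem_sup (hg x) (Subgroup.mem_zpowers g)
    have h3 : x * (z * g ^ m) * x⁻¹ = z * (x * g * x⁻¹) ^ m := by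
      rw [conj_zpow, ← mul_assoc, (Subgroup.mem_center_iff.1 hz x)]
      group
    rw [h3]
    exact Subgroup.mul_mem _ (Subgroup.mem_sup_left hz) (Subgroup.zpow_mem _ h1 m)
  · intro a ha b hb
    rw [Subgroup.mem_sup_of_normal_left] at ha hb
    obtain ⟨z, hz, y, hy, rfl⟩ := ha
    obtain ⟨z', hz', y', hy', rfl⟩ := hb
    obtain ⟨m, rfl⟩ := Subgroup.mem_zpowers_iff.1 hy
    obtain ⟨m', rfl⟩ := Subgroup.mem_zpowers_iff.1 hy'
    have c1 : ∀ w, w * z = z * w := fun w => Subgroup.mem_center_iff.1 hz w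
    have c2 : ∀ w, w * z' = z' * w := fun w => Subgroup.mem_center_iff.1 hz' w
    calc z * g ^ m * (z' * g ^ m') = z * (g ^ m * z') * g ^ m' := by group
      _ = z * z' * (g ^ m * g ^ m') := by rw [c2]; group
      _ = z * z' * (g ^ m' * g ^ m) := by rw [← zpow_add, ← zpow_add, add_comm]
      _ = z' * z * (g ^ m' * g ^ m) := by rw [c2 z]
      _ = z' * (z * g ^ m') * g ^ m := by group
      _ = z' * (g ^ m' * z) * g ^ m := by rw [c1]
      _ = z' * g ^ m' * (z * g ^ m) := by group
  · exact Subgroup.mem_sup_right (Subgroup.mem_zpowers g)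
  · by_contra h
    push Not at h
    exact hg' (Subgroup.mem_center_iff.2 h)

/-- nonabelian nilpotent groups have noncentral abelian normal subgroups -/
lemma noncentralAbelian_of_nilpotent (Q : Type u) [Group Q] [hn : Group.IsNilpotent Q]
    (hab : ∃ a b : Q, a * b ≠ b * a) : NoncentralAbelian Q := by
  have h1 : ∃ g ∈ Subgroup.upperCentralSeries Q 2, g ∉ Subgroup.upperCentralSeries Q 1 := by
    by_contra hcon
    push Not at hcon
    have h2 : ∀ n, 1 ≤ n → Subgroup.upperCentralSeries Q n ≤ Subgroup.upperCentralSeries Q 1 := by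
      intro n hn1
      induction n, hn1 using Nat.le_induction with
      | base => exact le_rfl
      | succ m _ ih =>
        intro x hx
        apply hcon
        rw [Subgroup.mem_upperCentralSeries_succ_iff] at hx ⊢
        exact fun y => ih (hx y)
    obtain ⟨n, hn'⟩ := hn.nilpotent'
    have h3 : Subgroup.upperCentralSeries Q 1 = ⊤ := by
      rcases Nat.eq_zero_or_pos n with h0 | h0
      · subst h0
        rw [eq_top_iff, ← hn']
        exact Subgroup.upperCentralSeries_mono Q (Nat.zero_le 1)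
      · rw [eq_top_iff, ← hn']
        exact h2 n h0
    rw [Subgroup.upperCentralSeries_one] at h3
    obtain ⟨a, b, hab⟩ := hab
    apply hab
    have : b ∈ Subgroup.center Q := by rw [h3]; trivial
    exact Subgroup.mem_center_iff.1 this a
  obtain ⟨g, hg2, hg1⟩ := h1
  rw [Subgroup.mem_upperCentralSeries_succ_iff] at hg2
  rw [Subgroup.upperCentralSeries_one] at hg2 hg1
  refine noncentralAbelian_of_mem (g := g) (fun x => ?_) hg1
  have h4 := hg2 x
  have h5 : x * g * x⁻¹ * g⁻¹ = (g * x * g⁻¹ * x⁻¹)⁻¹ := by group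
  rw [h5]
  exact Subgroup.inv_mem _ h4

theorem secAb_of_nilpotent {G : Type u} [Group G] [Group.IsNilpotent G] : SecAb G := by
  intro H Q _ π hπ hab
  have : Group.IsNilpotent Q := Group.nilpotent_of_surjective π hπ
  exact noncentralAbelian_of_nilpotent Q hab

/-- metabelian groups: the commutators commute -/
theorem secAb_of_metabelian {G : Type u} [Group G]
    (h : ∀ a b c d : G, ⁅a, b⁆ * ⁅c, d⁆ = ⁅c, d⁆ * ⁅a, b⁆) : SecAb G := by
  intro H Q _ π hπ hab
  have hQ : ∀ a b c d : Q, ⁅a, b⁆ * ⁅c, d⁆ = ⁅c, d⁆ * ⁅a, b⁆ := by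
    intro a b c d
    obtain ⟨a, rfl⟩ := hπ a
    obtain ⟨b, rfl⟩ := hπ b
    obtain ⟨c, rfl⟩ := hπ c
    obtain ⟨d, rfl⟩ := hπ d
    simp only [← map_commutatorElement, ← map_mul]
    congr 1
    exact Subtype.ext (h a b c d)
  by_cases hc : commutator Q ≤ Subgroup.center Q
  · obtain ⟨a, b, hab⟩ := hab
    refine noncentralAbelian_of_mem (g := a) (fun x => hc ?_) ?_
    · have : x * a * x⁻¹ * a⁻¹ = ⁅x, a⁆ := rfl
      rw [this, commutator_def]
      exact Subgroup.commutator_mem_commutator (Subgroup.mem_top _) (Subgroup.mem_top _)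
    · intro ha
      exact hab (Subgroup.mem_center_iff.1 ha b).symm
  · rw [SetLike.not_le_iff_exists] at hc
    obtain ⟨a, ha, hac⟩ := hc
    refine ⟨commutator Q, inferInstance, ?_, a, ha, ?_⟩
    · have h1 : commutator Q ≤ Subgroup.centralizer (commutator Q : Set Q) := by
        rw [commutator_eq_closure, Subgroup.closure_le]
        rintro _ ⟨x, y, rfl⟩
        rw [SetLike.mem_coe, Subgroup.mem_centralizer_iff]
        have h2 : commutator Q ≤ Subgroup.centralizer ({⁅x, y⁆} : Set Q) := by
          rw [commutator_eq_closure, Subgroup.closure_le]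
          rintro _ ⟨z, w, rfl⟩
          rw [SetLike.mem_coe, Subgroup.mem_centralizer_iff]
          rintro _ rfl
          exact hQ x y z w
        intro c hc'
        have h3 := h2 (by rw [commutator_eq_closure]; exact hc')
        rw [Subgroup.mem_centralizer_iff] at h3
        exact (h3 _ rfl).symm
      intro x hx y hy
      have h2 := h1 hx
      rw [Subgroup.mem_centralizer_iff] at h2
      exact (h2 y hy).symm
    · by_contra hcon
      push Not at hcon
      exact hac (Subgroup.mem_center_iff.2 hcon)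

end Vale.Agent.P318.R2.H867
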