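import Vale.Agent.P318.R2.H867.RatSpec
import Vale.Agent.P318.R2.H221.Nonlin3
import Vale.Agent.P318.R2.H356.Gen

/-!
# Rational conjugation invariant weights: the theorem
-/

open Finset

set_option linter.unusedSectionVars false

namespace Vale.Agent.P318.R2.H867

universe u

open Vale.Agent.P318.H867 Vale.Agent.P318.R2.H356

/-- the relaxation from a spectral inequality -/
theorem gl_of_spectral_gen {G : Type*} [Group G] [Fintype G] [DecidableEq G] [Nontrivial G]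
    {c : G → G → ℝ} {B : ℝ} (hB : 0 < B) (hsp : ∀ h : G → ℝ,
      phi c * ∑ x, ∑ y, (h x - h y) ^ 2 ≤ B * ∑ x, ∑ y, c x y * (h x - h y) ^ 2) :
    phi c ≤ B * glValue c := by
  apply R2.H221.phi_le_gl hB
  rintro d ⟨⟨x, hx⟩, -⟩ h1
  have h2 : ∀ i j, d i j = ∑ k, (x i k - x j k) ^ 2 := by
    intro i j
    rw [hx, EuclideanSpace.norm_sq_eq]
    refine sum_congr rfl fun k _ => ?_
    simp
  have h3 : ∑ i, ∑ j, d i j = 2 := by linarith
  have hcomm : ∀ F : G → G → G → ℝ, ∑ i, ∑ j, ∑ k, F i j k = ∑ k, ∑ i, ∑ j, F i j k := by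
    intro F
    rw [sum_congr rfl fun i _ => sum_comm (f := fun j k => F i j k)]
    exact sum_comm
  have h4 : ∑ i, ∑ j, d i j = ∑ k, ∑ i, ∑ j, (x i k - x j k) ^ 2 := by
    simp_rw [h2]
    exact hcomm fun i j k => (x i k - x j k) ^ 2
  have h5 : ∑ i, ∑ j, c i j * d i j = ∑ k, ∑ i, ∑ j, c i j * (x i k - x j k) ^ 2 := by
    simp_rw [h2, mul_sum]
    exact hcomm fun i j k => c i j * (x i k - x j k) ^ 2
  have h6 : phi c * ∑ k, ∑ i, ∑ j, (x i k - x j k) ^ 2 ≤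
      B * ∑ k, ∑ i, ∑ j, c i j * (x i k - x j k) ^ 2 := by
    rw [mul_sum, mul_sum]
    exact sum_le_sum fun k _ => hsp fun i => x i k
  rw [← h4, ← h5, h3] at h6
  linarith

/-- a nonnegative function with the same value at elements which generate conjugate cyclic
subgroups -/
def RatWeight {G : Type*} [Group G] (c : G → ℝ) : Prop :=
  (∀ g, 0 ≤ c g) ∧ (∀ x g, c (x * g * x⁻¹) = c g) ∧
    ∀ g h, Subgroup.zpowers g = Subgroup.zpowers h → c g = c h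

lemma RatWeight.inv {G : Type*} [Group G] {c : G → ℝ} (hc : RatWeight c) (g : G) :
    c g⁻¹ = c g := hc.2.2 _ _ Subgroup.zpowers_inv

lemma RatWeight.pow {G : Type u} [Group G] [Finite G] {c : G → ℝ} (hc : RatWeight c) {k : ℕ}
    (hk : Nat.Coprime k (Nat.card G)) (g : G) : c (g ^ k) = c g :=
  hc.2.2 _ _ (zpowers_pow hk g)

/-- composition factors of bounded conjugacy diameter, in particular all solvable groups
(`l = 0`) -/
theorem rat_diam {G : Type u} [Group G] [Fintype G] [DecidableEq G] [Nontrivial G] {l : ℕ}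
    {c : G → ℝ}
    (hl : ∀ L : Subgroup G, L.IsSubnormal → ∀ (R : Subgroup L) [R.Normal],
      IsSimpleGroup (L ⧸ R) → (∃ a b : L ⧸ R, a * b ≠ b * a) →
      ∀ x y : L ⧸ R, x ≠ 1 → ∃ w : List (L ⧸ R), w.length ≤ l ∧
        (∀ u ∈ w, IsConj x u ∨ IsConj x⁻¹ u) ∧ w.prod = y)
    (hc : RatWeight c) :
    (∀ u : G → ℝ, phi (fun x y : G => c (x⁻¹ * y)) * ∑ x, ∑ y, (u x - u y) ^ 2 ≤
      (8 + 128 * (l : ℝ) ^ 2) * ∑ x, ∑ y, c (x⁻¹ * y) * (u x - u y) ^ 2) ∧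
    phi (fun x y : G => c (x⁻¹ * y)) ≤
      (8 + 128 * (l : ℝ) ^ 2) * glValue (fun x y : G => c (x⁻¹ * y)) := by
  have key : ∀ u : G → ℝ, phi (fun x y : G => c (x⁻¹ * y)) * ∑ x, ∑ y, (u x - u y) ^ 2 ≤
      (8 + 128 * (l : ℝ) ^ 2) * ∑ x, ∑ y, c (x⁻¹ * y) * (u x - u y) ^ 2 := by
    intro u
    have h := spectral_rat hc.1 hc.inv hc.2.1 (fun k hk g => hc.pow hk g)
      (K := 4 + 64 * (l : ℝ) ^ 2) (by nlinarith [sq_nonneg (l : ℝ)])
      (fun α hα h1 => R2.H356.nonlin2 hl hα h1 hc.1) u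
    have h2 : 2 * (4 + 64 * (l : ℝ) ^ 2) = 8 + 128 * (l : ℝ) ^ 2 := by ring
    rwa [h2] at h
  exact ⟨key, gl_of_spectral_gen (by positivity) key⟩

/-- composition factors alternating, or of bounded conjugacy diameter -/
theorem rat_alt {G : Type u} [Group G] [Fintype G] [DecidableEq G] [Nontrivial G] {l : ℕ}
    {c : G → ℝ}
    (hl : ∀ L : Subgroup G, L.IsSubnormal → ∀ (R : Subgroup L) [R.Normal],
      IsSimpleGroup (L ⧸ R) → (∃ a b : L ⧸ R, a * b ≠ b * a) →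
      (∃ n, 5 ≤ n ∧ Nonempty ((L ⧸ R) ≃* alternatingGroup (Fin n))) ∨
      ∀ x y : L ⧸ R, x ≠ 1 → ∃ w : List (L ⧸ R), w.length ≤ l ∧
        (∀ u ∈ w, IsConj x u ∨ IsConj x⁻¹ u) ∧ w.prod = y)
    (hc : RatWeight c) :
    (∀ u : G → ℝ, phi (fun x y : G => c (x⁻¹ * y)) * ∑ x, ∑ y, (u x - u y) ^ 2 ≤
      (8 + 128 * R2.H221.CA ^ 2 + 128 * (l : ℝ) ^ 2) *
        ∑ x, ∑ y, c (x⁻¹ * y) * (u x - u y) ^ 2) ∧
    phi (fun x y : G => c (x⁻¹ * y)) ≤
      (8 + 128 * R2.H221.CA ^ 2 + 128 * (l : ℝ) ^ 2) *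
        glValue (fun x y : G => c (x⁻¹ * y)) := by
  have key : ∀ u : G → ℝ, phi (fun x y : G => c (x⁻¹ * y)) * ∑ x, ∑ y, (u x - u y) ^ 2 ≤
      (8 + 128 * R2.H221.CA ^ 2 + 128 * (l : ℝ) ^ 2) *
        ∑ x, ∑ y, c (x⁻¹ * y) * (u x - u y) ^ 2 := by
    intro u
    have h := spectral_rat hc.1 hc.inv hc.2.1 (fun k hk g => hc.pow hk g)
      (K := 4 + 64 * (l : ℝ) ^ 2 + 64 * R2.H221.CA ^ 2)
      (by nlinarith [sq_nonneg (l : ℝ), sq_nonneg R2.H221.CA])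
      (fun α hα h1 => R2.H221.nonlin3 hl hα h1 hc.1) u
    have h2 : 2 * (4 + 64 * (l : ℝ) ^ 2 + 64 * R2.H221.CA ^ 2) =
      8 + 128 * R2.H221.CA ^ 2 + 128 * (l : ℝ) ^ 2 := by ring
    rwa [h2] at h
  exact ⟨key, gl_of_spectral_gen (by positivity) key⟩

end Vale.Agent.P318.R2.H867
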