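import Mathlib

/-!
# Isolated linear characters of subgroups

A linear character of a subgroup, extended by zero, is isolated if the Mackey condition holds:
then it is an eigenfunction of every class function.
-/

open Finset

namespace Vale.Agent.P318.R2.H867

section defs

variable {G : Type*} [Group G]

/-- a linear character of a subgroup, extended by zero -/
structure LinChar (φ : G → ℂ) : Prop where
  one : φ 1 = 1
  mul_left : ∀ h x, φ h ≠ 0 → φ (h * x) = φ h * φ x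
  mul_right : ∀ x h, φ h ≠ 0 → φ (x * h) = φ x * φ h

/-- isolated linear characters of subgroups: the induced representation is irreducible -/
structure Isol (φ : G → ℂ) : Prop extends LinChar φ where
  isol : ∀ g, φ g = 0 → ∃ h h', h * g = g * h' ∧ φ h ≠ 0 ∧ φ h' ≠ 0 ∧ φ h ≠ φ h'

lemma LinChar.pow_apply {φ : G → ℂ} (hφ : LinChar φ) {h : G} (hh : φ h ≠ 0) (k : ℕ) :
    φ (h ^ k) = φ h ^ k := by
  induction k with
  | zero => simp [hφ.one]
  | succ k ih => rw [pow_succ', hφ.mul_left _ _ hh, ih, pow_succ']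

lemma LinChar.inv_mul {φ : G → ℂ} (hφ : LinChar φ) {h : G} (hh : φ h ≠ 0) :
    φ h⁻¹ * φ h = 1 := by
  rw [← hφ.mul_right _ _ hh, inv_mul_cancel, hφ.one]

lemma LinChar.inv_ne {φ : G → ℂ} (hφ : LinChar φ) {h : G} (hh : φ h ≠ 0) : φ h⁻¹ ≠ 0 := by
  intro h0
  have := hφ.inv_mul hh
  rw [h0, zero_mul] at this
  exact zero_ne_one this

lemma LinChar.inv_apply {φ : G → ℂ} (hφ : LinChar φ) {h : G} (hh : φ h ≠ 0) :
    φ h⁻¹ = (φ h)⁻¹ := eq_inv_of_mul_eq_one_left (hφ.inv_mul hh)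

lemma LinChar.mul_ne {φ : G → ℂ} (hφ : LinChar φ) {h x : G} (hh : φ h ≠ 0) (hx : φ x ≠ 0) :
    φ (h * x) ≠ 0 := by
  rw [hφ.mul_left _ _ hh]; exact mul_ne_zero hh hx

lemma LinChar.pow_card {φ : G → ℂ} [Finite G] (hφ : LinChar φ) {h : G} (hh : φ h ≠ 0) :
    φ h ^ Nat.card G = 1 := by
  rw [← hφ.pow_apply hh, pow_card_eq_one', hφ.one]

lemma eq_of_pow_eq {w w' : ℂ} {k n : ℕ} (hn : w ^ n = 1) (hn' : w' ^ n = 1)
    (h0 : w' ≠ 0) (hk : w ^ k = w' ^ k) (hc : Nat.Coprime k n) : w = w' := by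
  have h1 : (w / w') ^ k = 1 := by
    rw [div_pow, hk, div_self (pow_ne_zero _ h0)]
  have h2 : (w / w') ^ n = 1 := by
    rw [div_pow, hn, hn', div_one]
  have h3 := pow_gcd_eq_one.2 ⟨h1, h2⟩
  rw [hc.gcd_eq_one, pow_one] at h3
  exact (div_eq_one_iff_eq h0).1 h3

lemma Isol.pow {φ : G → ℂ} [Finite G] (hφ : Isol φ) {k : ℕ} (hk0 : k ≠ 0)
    (hk : Nat.Coprime k (Nat.card G)) : Isol (fun x => φ x ^ k) where
  one := by simp [hφ.one]
  mul_left := by
    intro h x hh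
    have h1 : φ h ≠ 0 := fun h0 => hh (by simp [h0, hk0])
    simp only [hφ.mul_left _ _ h1, mul_pow]
  mul_right := by
    intro x h hh
    have h1 : φ h ≠ 0 := fun h0 => hh (by simp [h0, hk0])
    simp only [hφ.mul_right _ _ h1, mul_pow]
  isol := by
    intro g hg
    have hg0 : φ g = 0 := by
      by_contra h0; exact (pow_ne_zero k h0) hg
    obtain ⟨h, h', h1, h2, h3, h4⟩ := hφ.isol g hg0
    refine ⟨h, h', h1, pow_ne_zero _ h2, pow_ne_zero _ h3, fun h5 => h4 ?_⟩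
    exact eq_of_pow_eq (hφ.pow_card h2) (hφ.pow_card h3) h3 h5 hk

/-- isolated characters are eigenfunctions of all class functions -/
theorem Isol.eigen [Fintype G] {φ : G → ℂ} (hφ : Isol φ) {c : G → ℂ}
    (hc : ∀ g x, c (g * x * g⁻¹) = c x) (x : G) :
    ∑ y, c (x⁻¹ * y) * φ y = (∑ y, c y * φ y) * φ x := by
  set ψ : G → ℂ := fun x => ∑ y, c (x⁻¹ * y) * φ y with hψ
  have hL : ∀ h x, φ h ≠ 0 → ψ (h * x) = φ h * ψ x := by
    intro h x hh
    simp only [hψ]
    rw [← Equiv.sum_comp (Equiv.mulLeft h), mul_sum]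
    refine sum_congr rfl fun y _ => ?_
    simp only [Equiv.coe_mulLeft]
    rw [hφ.mul_left _ _ hh]
    have : (h * x)⁻¹ * (h * y) = x⁻¹ * y := by group
    rw [this]; ring
  have hR : ∀ x h, φ h ≠ 0 → ψ (x * h) = φ h * ψ x := by
    intro x h hh
    simp only [hψ]
    rw [← Equiv.sum_comp (Equiv.mulRight h), mul_sum]
    refine sum_congr rfl fun y _ => ?_
    simp only [Equiv.coe_mulRight]
    rw [hφ.mul_right _ _ hh]
    have : (x * h)⁻¹ * (y * h) = h⁻¹ * (x⁻¹ * y) * h⁻¹⁻¹ := by group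
    rw [this, hc]; ring
  have h1 : ψ 1 = ∑ y, c y * φ y := by
    simp only [hψ, inv_one, one_mul]
  change ψ x = _
  by_cases hx : φ x = 0
  · obtain ⟨h, h', e, hh, hh', hne⟩ := hφ.isol x hx
    have h2 : φ h * ψ x = φ h' * ψ x := by
      rw [← hL _ _ hh, ← hR _ _ hh', e]
    have h3 : (φ h - φ h') * ψ x = 0 := by rw [sub_mul, h2, sub_self]
    rcases mul_eq_zero.1 h3 with h4 | h4
    · exact absurd (sub_eq_zero.1 h4) hne
    · rw [h4, hx, mul_zero]
  · have := hL x 1 hx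
    rw [mul_one] at this
    rw [this, h1, mul_comm]

end defs

end Vale.Agent.P318.R2.H867
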