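import Vale.Agent.P318.R2.H867.Mono1

/-!
# Isolated linear characters span

If every nonabelian section of the finite group `G` has a noncentral abelian normal subgroup,
the left translates of the isolated linear characters of subgroups span all functions on `G`.
-/

open Finset

namespace Vale.Agent.P318.R2.H867

universe u

/-- left translates of isolated characters -/
def genSet (G : Type u) [Group G] : Set (G → ℂ) :=
  {u | ∃ φ : G → ℂ, Isol φ ∧ ∃ a : G, u = fun x => φ (a * x)}

open Classical in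
/-- the indicator of the unit -/
noncomputable def delta (G : Type u) [Group G] : G → ℂ := fun x => if x = 1 then 1 else 0

/-- `Q` has a noncentral abelian normal subgroup -/
def NoncentralAbelian (Q : Type u) [Group Q] : Prop :=
  ∃ A : Subgroup Q, A.Normal ∧ (∀ a ∈ A, ∀ b ∈ A, a * b = b * a) ∧ ∃ a ∈ A, ∃ g : Q, g * a ≠ a * g

/-- every nonabelian section of `G` has a noncentral abelian normal subgroup -/
def SecAb (G : Type u) [Group G] : Prop :=
  ∀ (H : Subgroup G) (Q : Type u) [Group Q] (π : H →* Q), Function.Surjective π →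
    (∃ a b : Q, a * b ≠ b * a) → NoncentralAbelian Q

lemma SecAb.subgroup {G : Type u} [Group G] (h : SecAb G) (T : Subgroup G) : SecAb T := by
  intro H Q _ π hπ hab
  let e : H ≃* H.map T.subtype := H.equivMapOfInjective T.subtype T.subtype_injective
  refine h (H.map T.subtype) Q (π.comp e.symm.toMonoidHom) ?_ hab
  intro q
  obtain ⟨x, rfl⟩ := hπ q
  exact ⟨e x, by simp⟩

lemma SecAb.quotient {G G' : Type u} [Group G] [Group G'] (h : SecAb G) (f : G →* G')
    (hf : Function.Surjective f) : SecAb G' := by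
  intro H Q _ π hπ hab
  refine h (H.comap f) Q (π.comp (f.subgroupComap H)) ?_ hab
  intro q
  obtain ⟨x, rfl⟩ := hπ q
  obtain ⟨y, hy⟩ := f.subgroupComap_surjective_of_surjective H hf x
  exact ⟨y, by simp [hy]⟩

lemma SecAb.self {G : Type u} [Group G] (h : SecAb G) (hab : ∃ a b : G, a * b ≠ b * a) :
    NoncentralAbelian G :=
  h ⊤ G (Subgroup.topEquiv (G := G)).toMonoidHom
    (Subgroup.topEquiv (G := G)).surjective hab

section span

variable {G : Type u} [Group G]

lemma translate_mem {u : G → ℂ} (hu : u ∈ Submodule.span ℂ (genSet G)) (a : G) :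
    (fun x => u (a * x)) ∈ Submodule.span ℂ (genSet G) := by
  induction hu using Submodule.span_induction with
  | mem u hu =>
    obtain ⟨φ, hφ, b, rfl⟩ := hu
    refine Submodule.subset_span ⟨φ, hφ, b * a, ?_⟩
    ext x; simp [mul_assoc]
  | zero => exact Submodule.zero_mem _
  | add u v _ _ h1 h2 => exact Submodule.add_mem _ h1 h2
  | smul c u _ h1 => exact Submodule.smul_mem _ c h1

lemma full_of_delta [Finite G] (h : delta G ∈ Submodule.span ℂ (genSet G)) (u : G → ℂ) :
    u ∈ Submodule.span ℂ (genSet G) := by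
  classical
  have := Fintype.ofFinite G
  have h1 : u = ∑ a, u a • (fun x => delta G (a⁻¹ * x)) := by
    ext x
    simp only [Finset.sum_apply, Pi.smul_apply, smul_eq_mul, delta, inv_mul_eq_one]
    simp
  rw [h1]
  exact Submodule.sum_mem _ fun a _ => Submodule.smul_mem _ _ (translate_mem h _)

/-- Fourier inversion on an abelian subgroup -/
lemma delta_eq_sum [Finite G] (A : Subgroup G) (hA : ∀ a ∈ A, ∀ b ∈ A, a * b = b * a)
    {S : Submodule ℂ (G → ℂ)}
    (hS : ∀ θ : G → ℂ, LinChar θ → (∀ x, θ x ≠ 0 ↔ x ∈ A) → θ ∈ S) : delta G ∈ S := by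
  classical
  letI : CommGroup A := { (inferInstance : Group A) with
    mul_comm := fun a b => Subtype.ext (hA a a.2 b b.2) }
  have := Fintype.ofFinite A
  have : Fintype (Additive A) := Fintype.ofFinite _
  let ext : AddChar (Additive A) ℂ → G → ℂ := fun ψ x =>
    if h : x ∈ A then ψ (Additive.ofMul ⟨x, h⟩) else 0
  have hne : ∀ ψ x, ext ψ x ≠ 0 ↔ x ∈ A := by
    intro ψ x
    by_cases h : x ∈ A
    · simp only [ext, dif_pos h, h, iff_true]
      intro h0
      have h1 := ψ.map_add_eq_mul (Additive.ofMul (⟨x, h⟩ : A)) (-Additive.ofMul (⟨x, h⟩ : A))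
      rw [add_neg_cancel, ψ.map_zero_eq_one, h0, zero_mul] at h1
      exact one_ne_zero h1
    · simp [ext, h]
  have hlin : ∀ ψ, LinChar (ext ψ) := by
    intro ψ
    refine ⟨?_, ?_, ?_⟩
    · have h1 : (1 : G) ∈ A := A.one_mem
      simp only [ext, dif_pos h1]
      exact ψ.map_zero_eq_one
    · intro h x hh
      have hhA := (hne ψ h).1 hh
      by_cases hx : x ∈ A
      · simp only [ext, dif_pos hhA, dif_pos hx, dif_pos (A.mul_mem hhA hx)]
        rw [← ψ.map_add_eq_mul]; rfl
      · have h2 : h * x ∉ A := fun h3 => hx ((A.mul_mem_cancel_left hhA).1 h3)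
        simp [ext, hx, h2]
    · intro x h hh
      have hhA := (hne ψ h).1 hh
      by_cases hx : x ∈ A
      · simp only [ext, dif_pos hhA, dif_pos hx, dif_pos (A.mul_mem hx hhA)]
        rw [← ψ.map_add_eq_mul]; rfl
      · have h2 : x * h ∉ A := fun h3 => hx ((A.mul_mem_cancel_right hhA).1 h3)
        simp [ext, hx, h2]
  have hcard : (Fintype.card (Additive A) : ℂ) ≠ 0 := by
    exact_mod_cast Fintype.card_ne_zero
  have h1 : delta G = (Fintype.card (Additive A) : ℂ)⁻¹ • ∑ ψ : AddChar (Additive A) ℂ, ext ψ := by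
    ext x
    simp only [Pi.smul_apply, Finset.sum_apply, smul_eq_mul]
    by_cases hx : x ∈ A
    · simp only [ext, dif_pos hx]
      rw [AddChar.sum_apply_eq_ite]
      by_cases h1 : x = 1
      · subst h1
        have : Additive.ofMul (⟨1, hx⟩ : A) = 0 := rfl
        rw [if_pos this, inv_mul_cancel₀ hcard]; simp [delta]
      · have : Additive.ofMul (⟨x, hx⟩ : A) ≠ 0 := by
          intro h2
          apply h1
          have h3 : (⟨x, hx⟩ : A) = 1 := h2
          exact congrArg Subtype.val h3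
        rw [if_neg this, mul_zero]; simp [delta, h1]
    · have h1 : x ≠ 1 := fun h => hx (h ▸ A.one_mem)
      simp [ext, hx, delta, h1]
  rw [h1]
  exact Submodule.smul_mem _ _ (Submodule.sum_mem _ fun ψ _ => hS _ (hlin ψ) (hne ψ))

/-- projection to an isotypic component of a normal abelian subgroup -/
lemma project [Finite G] (A : Subgroup G) [A.Normal] (hA : ∀ a ∈ A, ∀ b ∈ A, a * b = b * a)
    [Fintype A] {θ φ : G → ℂ} (hθ : LinChar θ) (hθA : ∀ x, θ x ≠ 0 ↔ x ∈ A) (hφ : LinChar φ)
    (T : Subgroup G) (hT : ∀ g, g ∈ T ↔ ∀ a ∈ A, θ (g * a * g⁻¹) = θ a)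
    (hφT : ∀ x, φ x ≠ 0 → x ∈ T)
    (hiso : ∀ g ∈ T, φ g = 0 → ∃ h h', h * g = g * h' ∧ φ h ≠ 0 ∧ φ h' ≠ 0 ∧ φ h ≠ φ h')
    {t : G} (ht : t ∈ T) :
    (fun x => ∑ a : A, (θ a)⁻¹ * φ (t * (a * x))) ∈ Submodule.span ℂ (genSet G) := by
  classical
  have hnorm : ∀ g : G, ∀ a ∈ A, g * a * g⁻¹ ∈ A := fun g a ha =>
    ‹A.Normal›.conj_mem a ha g
  have hθ1 : ∀ a ∈ A, θ a ≠ 0 := fun a ha => (hθA a).2 ha
  have hAT : ∀ a ∈ A, a ∈ T := by
    intro a ha
    rw [hT]
    intro b hb
    rw [hA a ha b hb, mul_inv_cancel_right]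
  -- move `t` to the right of `a`
  let cj : A ≃ A :=
    { toFun := fun a => ⟨t * a * t⁻¹, hnorm t a a.2⟩
      invFun := fun a => ⟨t⁻¹ * a * t, by simpa using hnorm t⁻¹ a a.2⟩
      left_inv := fun a => Subtype.ext (by simp [mul_assoc])
      right_inv := fun a => Subtype.ext (by simp [mul_assoc]) }
  have hmove : ∀ x, ∑ a : A, (θ a)⁻¹ * φ (t * (a * x)) = ∑ a : A, (θ a)⁻¹ * φ (a * (t * x)) := by
    intro x
    rw [← Equiv.sum_comp cj (fun a : A => (θ a)⁻¹ * φ (a * (t * x)))]
    refine sum_congr rfl fun a _ => ?_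
    have h1 : θ (cj a : A) = θ a := (hT t).1 ht a a.2
    have h2 : ((cj a : A) : G) * (t * x) = t * (a * x) := by
      simp [cj, mul_assoc]
    rw [h1, h2]
  have hfun : (fun x => ∑ a : A, (θ a)⁻¹ * φ (t * (a * x))) =
      fun x => ∑ a : A, (θ a)⁻¹ * φ (a * (t * x)) := funext hmove
  rw [hfun]
  by_cases h0 : ∃ a₀ ∈ A, φ a₀ ≠ 0 ∧ φ a₀ ≠ θ a₀
  · obtain ⟨a₀, ha₀, h1, h2⟩ := h0
    have hz : (fun x => ∑ a : A, (θ a)⁻¹ * φ (a * (t * x))) = 0 := by
      ext x
      set y := t * x with hy
      have h3 : ∑ a : A, (θ a)⁻¹ * φ (a * y) =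
          ((θ a₀)⁻¹ * φ a₀) * ∑ a : A, (θ a)⁻¹ * φ (a * y) := by
        conv_lhs => rw [← Equiv.sum_comp (Equiv.mulRight (⟨a₀, ha₀⟩ : A))]
        rw [mul_sum]
        refine sum_congr rfl fun a _ => ?_
        simp only [Equiv.coe_mulRight, Subgroup.coe_mul]
        rw [hθ.mul_left _ _ (hθ1 a a.2), hA a a.2 a₀ ha₀, mul_assoc, hφ.mul_left _ _ h1, mul_inv]
        ring
      have h4 : (1 - (θ a₀)⁻¹ * φ a₀) * ∑ a : A, (θ a)⁻¹ * φ (a * y) = 0 := by
        rw [sub_mul, one_mul, ← h3, sub_self]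
      rcases mul_eq_zero.1 h4 with h5 | h5
      · exfalso
        apply h2
        have h6 : (θ a₀)⁻¹ * φ a₀ = 1 := (sub_eq_zero.1 h5).symm
        have h7 := hθ1 a₀ ha₀
        field_simp at h6
        exact h6
      · exact h5
    rw [hz]; exact Submodule.zero_mem _
  · push Not at h0
    have hne : ∀ a ∈ A, φ a ≠ 0 := by
      intro a ha hcon
      obtain ⟨h, h', e, h1, h2, h3⟩ := hiso a (hAT a ha) hcon
      have hhT := hφT h h1
      apply h3
      have e1 : h' = h * (h⁻¹ * a⁻¹ * h * a) := by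
        have : h' = a⁻¹ * (h * a) := by rw [e]; group
        rw [this]; group
      set b := h⁻¹ * a⁻¹ * h * a with hb
      have hbA : h⁻¹ * a⁻¹ * h ∈ A := by
        have := hnorm h⁻¹ a⁻¹ (A.inv_mem ha)
        simpa using this
      have hbA' : b ∈ A := A.mul_mem hbA ha
      have hφb : φ b ≠ 0 := by
        have : b = h⁻¹ * h' := by rw [e1]; group
        rw [this]
        exact hφ.mul_ne (hφ.inv_ne h1) h2
      have h4 : φ b = 1 := by
        rw [h0 b hbA' hφb, hb, hθ.mul_left _ _ (hθ1 _ hbA)]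
        have h5 := (hT h⁻¹).1 (T.inv_mem hhT) a⁻¹ (A.inv_mem ha)
        rw [inv_inv] at h5
        rw [h5, hθ.inv_mul (hθ1 a ha)]
      rw [e1, hφ.mul_left _ _ h1, h4, mul_one]
    have heq : ∀ a ∈ A, φ a = θ a := fun a ha => h0 a ha (hne a ha)
    have hIsol : Isol φ := by
      refine ⟨hφ, fun g hg => ?_⟩
      by_cases hgT : g ∈ T
      · exact hiso g hgT hg
      · rw [hT] at hgT
        push Not at hgT
        obtain ⟨a, ha, h1⟩ := hgT
        refine ⟨g * a * g⁻¹, a, by group, hne _ (hnorm g a ha), hne a ha, ?_⟩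
        rw [heq _ (hnorm g a ha), heq a ha]; exact h1
    have h5 : (fun x => ∑ a : A, (θ a)⁻¹ * φ (a * (t * x))) =
        (Fintype.card A : ℂ) • fun x => φ (t * x) := by
      ext x
      have : ∀ a : A, (θ a)⁻¹ * φ (a * (t * x)) = φ (t * x) := by
        intro a
        rw [hφ.mul_left _ _ (hne a a.2), heq a a.2, ← mul_assoc, inv_mul_cancel₀ (hθ1 a a.2),
          one_mul]
      simp [this]
    rw [h5]
    exact Submodule.smul_mem _ _ (Submodule.subset_span ⟨φ, hIsol, t, rfl⟩)

/-- inflation of isolated characters -/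
lemma Isol.inflate {G' : Type u} [Group G'] {φ : G' → ℂ} (hφ : Isol φ) (f : G →* G')
    (hf : Function.Surjective f) : Isol (fun x => φ (f x)) where
  one := by simp [hφ.one]
  mul_left := by
    intro h x hh
    simp only [map_mul]; exact hφ.mul_left _ _ hh
  mul_right := by
    intro x h hh
    simp only [map_mul]; exact hφ.mul_right _ _ hh
  isol := by
    intro g hg
    obtain ⟨h, h', e, h1, h2, h3⟩ := hφ.isol (f g) hg
    obtain ⟨k, rfl⟩ := hf h
    -- the partner is the conjugate of the lift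
    refine ⟨k, g⁻¹ * k * g, by group, h1, ?_, ?_⟩
    · have : f (g⁻¹ * k * g) = h' := by
        simp only [map_mul, map_inv]
        rw [mul_assoc, e]; group
      simp only [this]; exact h2
    · have : f (g⁻¹ * k * g) = h' := by
        simp only [map_mul, map_inv]
        rw [mul_assoc, e]; group
      simp only [this]; exact h3

lemma inflate_mem {G' : Type u} [Group G'] (f : G →* G') (hf : Function.Surjective f)
    {u : G' → ℂ} (hu : u ∈ Submodule.span ℂ (genSet G')) :
    (fun x => u (f x)) ∈ Submodule.span ℂ (genSet G) := by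
  induction hu using Submodule.span_induction with
  | mem u hu =>
    obtain ⟨φ, hφ, b, rfl⟩ := hu
    obtain ⟨a, rfl⟩ := hf b
    refine Submodule.subset_span ⟨_, hφ.inflate f hf, a, ?_⟩
    ext x; simp
  | zero => exact Submodule.zero_mem _
  | add u v _ _ h1 h2 => exact Submodule.add_mem _ h1 h2
  | smul c u _ h1 => exact Submodule.smul_mem _ c h1

end span

end Vale.Agent.P318.R2.H867
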