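import Vale.Agent.P318.R2.H867.Mono2

/-!
# Isolated linear characters span: the induction
-/

open Finset

namespace Vale.Agent.P318.R2.H867

universe u

open Classical in
/-- extension by zero from a subgroup -/
noncomputable def extZ {G : Type u} [Group G] (T : Subgroup G) (u : T → ℂ) : G → ℂ :=
  fun x => if h : x ∈ T then u ⟨x, h⟩ else 0

section ext

variable {G : Type u} [Group G] (T : Subgroup G)

lemma extZ_of_mem (u : T → ℂ) {x : G} (h : x ∈ T) : extZ T u x = u ⟨x, h⟩ := by
  simp [extZ, h]

lemma extZ_of_notMem (u : T → ℂ) {x : G} (h : x ∉ T) : extZ T u x = 0 := by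
  simp [extZ, h]

lemma mem_of_extZ {u : T → ℂ} {x : G} (h : extZ T u x ≠ 0) : x ∈ T := by
  by_contra h'
  exact h (extZ_of_notMem T u h')

lemma LinChar.ext {φ : T → ℂ} (hφ : LinChar φ) : LinChar (extZ T φ) := by
  refine ⟨?_, ?_, ?_⟩
  · rw [extZ_of_mem T φ T.one_mem]; exact hφ.one
  · intro h x hh
    have hT := mem_of_extZ T hh
    rw [extZ_of_mem T φ hT] at hh
    by_cases hx : x ∈ T
    · rw [extZ_of_mem T φ hT, extZ_of_mem T φ hx, extZ_of_mem T φ (T.mul_mem hT hx)]
      exact hφ.mul_left ⟨h, hT⟩ ⟨x, hx⟩ hh
    · have h2 : h * x ∉ T := fun h3 => hx ((T.mul_mem_cancel_left hT).1 h3)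
      rw [extZ_of_notMem T φ hx, extZ_of_notMem T φ h2, mul_zero]
  · intro x h hh
    have hT := mem_of_extZ T hh
    rw [extZ_of_mem T φ hT] at hh
    by_cases hx : x ∈ T
    · rw [extZ_of_mem T φ hT, extZ_of_mem T φ hx, extZ_of_mem T φ (T.mul_mem hx hT)]
      exact hφ.mul_right ⟨x, hx⟩ ⟨h, hT⟩ hh
    · have h2 : x * h ∉ T := fun h3 => hx ((T.mul_mem_cancel_right hT).1 h3)
      rw [extZ_of_notMem T φ hx, extZ_of_notMem T φ h2, zero_mul]

lemma Isol.ext_iso {φ : T → ℂ} (hφ : Isol φ) (g : G) (hg : g ∈ T) (h0 : extZ T φ g = 0) :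
    ∃ h h', h * g = g * h' ∧ extZ T φ h ≠ 0 ∧ extZ T φ h' ≠ 0 ∧ extZ T φ h ≠ extZ T φ h' := by
  rw [extZ_of_mem T φ hg] at h0
  obtain ⟨h, h', e, h1, h2, h3⟩ := hφ.isol _ h0
  refine ⟨h, h', congrArg Subtype.val e, ?_, ?_, ?_⟩
  · rw [extZ_of_mem T φ h.2]; exact h1
  · rw [extZ_of_mem T φ h'.2]; exact h2
  · rw [extZ_of_mem T φ h.2, extZ_of_mem T φ h'.2]; exact h3

lemma extZ_translate (φ : T → ℂ) (t : T) (y : G) :
    extZ T (fun x => φ (t * x)) y = extZ T φ (t * y) := by
  by_cases hy : y ∈ T
  · rw [extZ_of_mem T _ hy, extZ_of_mem T φ (T.mul_mem t.2 hy)]; rfl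
  · have h2 : (t : G) * y ∉ T := fun h3 => hy ((T.mul_mem_cancel_left t.2).1 h3)
    rw [extZ_of_notMem T _ hy, extZ_of_notMem T φ h2]

lemma extZ_add (u v : T → ℂ) (y : G) : extZ T (u + v) y = extZ T u y + extZ T v y := by
  by_cases hy : y ∈ T
  · rw [extZ_of_mem T _ hy, extZ_of_mem T _ hy, extZ_of_mem T _ hy]; rfl
  · rw [extZ_of_notMem T _ hy, extZ_of_notMem T _ hy, extZ_of_notMem T _ hy, add_zero]

lemma extZ_smul (c : ℂ) (u : T → ℂ) (y : G) : extZ T (c • u) y = c * extZ T u y := by
  by_cases hy : y ∈ T
  · rw [extZ_of_mem T _ hy, extZ_of_mem T _ hy]; rfl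
  · rw [extZ_of_notMem T _ hy, extZ_of_notMem T _ hy, mul_zero]

lemma extZ_delta (y : G) : extZ T (delta T) y = delta G y := by
  by_cases hy : y ∈ T
  · rw [extZ_of_mem T _ hy]
    by_cases h1 : y = 1
    · subst h1
      have : (⟨1, hy⟩ : T) = 1 := rfl
      simp [delta, this]
    · have : (⟨y, hy⟩ : T) ≠ 1 := fun h => h1 (congrArg Subtype.val h)
      simp [delta, this, h1]
  · have h1 : y ≠ 1 := fun h => hy (h ▸ T.one_mem)
    rw [extZ_of_notMem T _ hy]; simp [delta, h1]

end ext

/-- the stabiliser of a linear character of a normal abelian subgroup -/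
def stab {G : Type u} [Group G] (A : Subgroup G) [A.Normal] (θ : G → ℂ) : Subgroup G where
  carrier := {g | ∀ a ∈ A, θ (g * a * g⁻¹) = θ a}
  mul_mem' := by
    intro g h hg hh a ha
    have h1 : h * a * h⁻¹ ∈ A := ‹A.Normal›.conj_mem a ha h
    have h2 : g * h * a * (g * h)⁻¹ = g * (h * a * h⁻¹) * g⁻¹ := by group
    rw [h2, hg _ h1, hh a ha]
  one_mem' := by intro a _; simp
  inv_mem' := by
    intro g hg a ha
    have h1 : g⁻¹ * a * g⁻¹⁻¹ ∈ A := ‹A.Normal›.conj_mem a ha g⁻¹
    rw [← hg _ h1]
    congr 1
    group

theorem delta_mem : ∀ (n : ℕ) (G : Type u) [Group G] [Finite G], Nat.card G = n → SecAb G →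
    delta G ∈ Submodule.span ℂ (genSet G) := by
  intro n
  induction n using Nat.strong_induction_on with
  | _ n ih =>
    intro G _ _ hn hG
    classical
    by_cases hcomm : ∀ a b : G, a * b = b * a
    · refine delta_eq_sum ⊤ (fun a _ b _ => hcomm a b) fun θ hθ hθA => ?_
      refine Submodule.subset_span ⟨θ, ⟨hθ, fun g hg =>
        absurd hg ((hθA g).2 (Subgroup.mem_top g))⟩, 1, ?_⟩
      ext x; simp
    · push Not at hcomm
      obtain ⟨A, hAn, hA, a₁, ha₁, g₁, hg₁⟩ := hG.self hcomm
      refine delta_eq_sum A hA fun θ hθ hθA => ?_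
      have hθ1 : ∀ a ∈ A, θ a ≠ 0 := fun a ha => (hθA a).2 ha
      by_cases hinv : ∀ g, ∀ a ∈ A, θ (g * a * g⁻¹) = θ a
      · -- quotient by the kernel
        let N : Subgroup G :=
          { carrier := {x | θ x = 1}
            mul_mem' := by
              intro x y hx hy
              simp only [Set.mem_setOf_eq] at hx hy ⊢
              rw [hθ.mul_left _ _ (by rw [hx]; exact one_ne_zero), hx, hy, one_mul]
            one_mem' := hθ.one
            inv_mem' := by
              intro x hx
              simp only [Set.mem_setOf_eq] at hx ⊢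
              rw [hθ.inv_apply (by rw [hx]; exact one_ne_zero), hx, inv_one] }
        have hNmem : ∀ x, x ∈ N ↔ θ x = 1 := fun x => Iff.rfl
        have hNn : N.Normal := by
          refine ⟨fun x hx g => ?_⟩
          rw [hNmem] at hx ⊢
          rw [hinv g x ((hθA x).1 (by rw [hx]; exact one_ne_zero)), hx]
        have hN : N ≠ ⊥ := by
          intro hbot
          have h1 : g₁ * a₁ * g₁⁻¹ * a₁⁻¹ ∈ N := by
            rw [hNmem, hθ.mul_right _ _ (hθ.inv_ne (hθ1 a₁ ha₁)), hinv g₁ a₁ ha₁,
              hθ.inv_apply (hθ1 a₁ ha₁), mul_inv_cancel₀ (hθ1 a₁ ha₁)]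
          rw [hbot, Subgroup.mem_bot] at h1
          apply hg₁
          have h2 : g₁ * a₁ * g₁⁻¹ = a₁ := mul_inv_eq_one.1 h1
          calc g₁ * a₁ = g₁ * a₁ * g₁⁻¹ * g₁ := by group
            _ = a₁ * g₁ := by rw [h2]
        have hcard : Nat.card (G ⧸ N) < n := by
          have h1 := Subgroup.card_eq_card_quotient_mul_card_subgroup N
          have h2 : 1 < Nat.card N := (Subgroup.one_lt_card_iff_ne_bot N).2 hN
          have h3 : 0 < Nat.card (G ⧸ N) := Nat.card_pos
          rw [hn] at h1
          rw [h1]
          exact lt_mul_of_one_lt_right h3 h2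
        have hq := ih _ hcard (G ⧸ N) rfl
          (hG.quotient (QuotientGroup.mk' N) (QuotientGroup.mk'_surjective N))
        have h1 := inflate_mem (QuotientGroup.mk' N) (QuotientGroup.mk'_surjective N)
          (full_of_delta hq (fun q => θ q.out))
        have h2 : (fun x : G => θ (QuotientGroup.mk' N x : G ⧸ N).out) = θ := by
          ext x
          obtain ⟨m, hm⟩ := QuotientGroup.mk_out_eq_mul N x
          have h3 : (QuotientGroup.mk' N x : G ⧸ N).out = x * m := hm
          have h4 : θ (m : G) = 1 := m.2
          rw [h3, hθ.mul_right _ _ (by rw [h4]; exact one_ne_zero), h4, mul_one]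
        rw [h2] at h1
        exact h1
      · -- the stabiliser is a proper subgroup
        have : Fintype A := Fintype.ofFinite A
        set T := stab A θ with hTdef
        have hT : ∀ g, g ∈ T ↔ ∀ a ∈ A, θ (g * a * g⁻¹) = θ a := fun g => Iff.rfl
        have hTtop : T ≠ ⊤ := by
          intro htop
          apply hinv
          intro g
          rw [← hT, htop]; exact Subgroup.mem_top g
        have hcard : Nat.card T < n := by
          rw [← hn]
          refine lt_of_le_of_ne (Subgroup.card_le_card_group T) fun h => hTtop ?_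
          exact Subgroup.eq_top_of_card_eq T h
        have hd := ih _ hcard T rfl (hG.subgroup T)
        have key : ∀ u ∈ Submodule.span ℂ (genSet T),
            (fun x => ∑ a : A, (θ a)⁻¹ * extZ T u (a * x)) ∈ Submodule.span ℂ (genSet G) := by
          intro u hu
          induction hu using Submodule.span_induction with
          | mem u hu =>
            obtain ⟨φ, hφ, t, rfl⟩ := hu
            simp only [extZ_translate]
            exact project A hA hθ hθA hφ.toLinChar.ext T hT (fun x hx => mem_of_extZ T hx)
              (fun g hg h0 => hφ.ext_iso T g hg h0) t.2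
          | zero =>
            convert Submodule.zero_mem _ using 1
            ext x
            have : ∀ y, extZ T 0 y = 0 := by
              intro y
              by_cases hy : y ∈ T
              · rw [extZ_of_mem T _ hy]; rfl
              · exact extZ_of_notMem T _ hy
            simp [this]
          | add u v _ _ h1 h2 =>
            convert Submodule.add_mem _ h1 h2 using 1
            ext x
            simp only [extZ_add, mul_add, sum_add_distrib, Pi.add_apply]
          | smul c u _ h1 =>
            convert Submodule.smul_mem _ c h1 using 1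
            ext x
            simp only [extZ_smul, Pi.smul_apply, smul_eq_mul, mul_sum]
            refine sum_congr rfl fun a _ => by ring
        have h1 := key _ hd
        have h2 : (fun x => ∑ a : A, (θ a)⁻¹ * extZ T (delta T) (a * x)) = θ := by
          ext x
          simp only [extZ_delta]
          by_cases hx : x ∈ A
          · rw [Finset.sum_eq_single (⟨x⁻¹, A.inv_mem hx⟩ : A)]
            · simp [delta, hθ.inv_apply (hθ1 x hx)]
            · intro b _ hb
              have : (b : G) * x ≠ 1 := by
                intro h3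
                apply hb
                apply Subtype.ext
                exact eq_inv_of_mul_eq_one_left h3
              simp [delta, this]
            · intro h; exact absurd (mem_univ _) h
          · have h3 : θ x = 0 := by
              by_contra h4; exact hx ((hθA x).1 h4)
            rw [h3]
            refine sum_eq_zero fun b _ => ?_
            have : (b : G) * x ≠ 1 := by
              intro h4
              apply hx
              rw [← inv_eq_of_mul_eq_one_right h4]
              exact A.inv_mem b.2
            simp [delta, this]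
        rw [h2] at h1
        exact h1

end Vale.Agent.P318.R2.H867
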