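import Vale.Agent.P318.R2.H867.Mono3

/-!
# The signed function of a linear character of a subgroup
-/

open Finset

set_option linter.unusedSectionVars false

namespace Vale.Agent.P318.R2.H867

universe u

section gen

variable {G : Type u} [Group G]

/-- the values of a linear character of a subgroup are the powers of one value -/
lemma LinChar.exists_gen [Finite G] {φ : G → ℂ} (hφ : LinChar φ) :
    ∃ (z : G) (d : ℕ), 0 < d ∧ IsPrimitiveRoot (φ z) d ∧ ∀ x, φ x ≠ 0 → φ x ^ d = 1 := by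
  classical
  let H : Subgroup G :=
    { carrier := {x | φ x ≠ 0}
      mul_mem' := fun {a b} ha hb => hφ.mul_ne ha hb
      one_mem' := by
        change φ 1 ≠ 0
        rw [hφ.one]; exact one_ne_zero
      inv_mem' := fun {a} ha => hφ.inv_ne ha }
  let lam : H →* ℂˣ :=
    { toFun := fun x => Units.mk0 (φ x) x.2
      map_one' := Units.ext hφ.one
      map_mul' := fun x y => Units.ext (hφ.mul_left _ _ x.2) }
  have hfin : Finite lam.range := Finite.of_surjective _ lam.rangeRestrict_surjective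
  obtain ⟨g, hg⟩ := Monoid.exists_orderOf_eq_exponent
    (Monoid.ExponentExists.of_finite (G := lam.range))
  obtain ⟨⟨z, hz⟩, hzg⟩ := lam.rangeRestrict_surjective g
  have hpos : 0 < Monoid.exponent lam.range := Monoid.exponent_pos_of_exists _
    (Nat.card_pos (α := lam.range)) (fun g => pow_card_eq_one')
  refine ⟨z, Monoid.exponent lam.range, hpos, ?_, ?_⟩
  · have h1 : orderOf (φ z) = Monoid.exponent lam.range := by
      rw [← hg, ← hzg, ← Subgroup.orderOf_coe, ← orderOf_units]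
      rfl
    rw [← h1]
    exact IsPrimitiveRoot.orderOf _
  · intro x hx
    have h1 := Monoid.pow_exponent_eq_one (lam.rangeRestrict ⟨x, hx⟩)
    have h2 := congrArg (fun w : lam.range => ((w : ℂˣ) : ℂ)) h1
    have h3 : ((lam ⟨x, hx⟩ : ℂˣ) : ℂ) ^ Monoid.exponent lam.range = 1 := by simpa using h2
    exact h3

end gen

section fourier

lemma ind_fourier {c : ℂ} {d : ℕ} (hc : c ≠ 0 → c ^ d = 1) :
    ∑ j ∈ range d, c ^ (j + 1) = if c = 1 then (d : ℂ) else 0 := by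
  by_cases h1 : c = 1
  · simp [h1]
  · rw [if_neg h1]
    by_cases h0 : c = 0
    · simp [h0]
    · have h2 : (c - 1) * ∑ j ∈ range d, c ^ j = 0 := by
        rw [mul_geom_sum, hc h0, sub_self]
      have h3 : ∑ j ∈ range d, c ^ j = 0 := by
        rcases mul_eq_zero.1 h2 with h | h
        · exact absurd (sub_eq_zero.1 h) h1
        · exact h
      simp_rw [pow_succ']
      rw [← mul_sum, h3, mul_zero]

variable {d : ℕ} {ζ : ℂ}

/-- the `p`-th root of unity `ζ^(d/p)` -/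
noncomputable def wp (ζ : ℂ) (d p : ℕ) : ℂ := ζ ^ (d / p)

lemma wp_pow {p : ℕ} (hζ : IsPrimitiveRoot ζ d) (hp : p ∈ d.primeFactors) :
    wp ζ d p ^ p = 1 := by
  rw [wp, ← pow_mul, Nat.div_mul_cancel (Nat.dvd_of_mem_primeFactors hp), hζ.pow_eq_one]

lemma wp_ne_one {p : ℕ} (hd : 0 < d) (hζ : IsPrimitiveRoot ζ d) (hp : p ∈ d.primeFactors) :
    wp ζ d p ≠ 1 := by
  have hpp := Nat.prime_of_mem_primeFactors hp
  have hdv := Nat.dvd_of_mem_primeFactors hp
  apply hζ.pow_ne_one_of_pos_of_lt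
  · exact (Nat.div_pos (Nat.le_of_dvd hd hdv) hpp.pos).ne'
  · exact Nat.div_lt_self hd hpp.one_lt

/-- the coefficients of the signed function -/
noncomputable def bk (ζ : ℂ) (d k : ℕ) : ℂ := ∏ p ∈ d.primeFactors, (1 - wp ζ d p ^ k)

lemma bk_eq_zero {k : ℕ} (hζ : IsPrimitiveRoot ζ d) (hk : ¬ Nat.Coprime k d)
    (hd : 0 < d) : bk ζ d k = 0 := by
  rw [Nat.Prime.not_coprime_iff_dvd] at hk
  obtain ⟨p, hp, h1, h2⟩ := hk
  have hmem : p ∈ d.primeFactors := Nat.mem_primeFactors.2 ⟨hp, h2, hd.ne'⟩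
  apply prod_eq_zero hmem
  obtain ⟨m, rfl⟩ := h1
  rw [pow_mul, wp_pow hζ hmem, one_pow, sub_self]

lemma bk_one_ne (hd : 0 < d) (hζ : IsPrimitiveRoot ζ d) : bk ζ d 1 ≠ 0 := by
  rw [bk, prod_ne_zero_iff]
  intro p hp
  rw [pow_one, sub_ne_zero]
  exact (wp_ne_one hd hζ hp).symm

/-- the products of distinct `wp` are distinct -/
lemma prod_wp_inj (hd : 0 < d) (hζ : IsPrimitiveRoot ζ d) {T T' : Finset ℕ}
    (hT : T ⊆ d.primeFactors) (hT' : T' ⊆ d.primeFactors)
    (h : ∏ p ∈ T, wp ζ d p = ∏ p ∈ T', wp ζ d p) : T = T' := by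
  have key : ∀ q ∈ d.primeFactors, ∀ S ⊆ d.primeFactors,
      ((∏ p ∈ S, wp ζ d p) ^ (∏ p ∈ d.primeFactors.erase q, p) ≠ 1 ↔ q ∈ S) := by
    intro q hq S hS
    set m := ∏ p ∈ d.primeFactors.erase q, p with hm
    have hqp := Nat.prime_of_mem_primeFactors hq
    have hother : ∀ p ∈ d.primeFactors, p ≠ q → wp ζ d p ^ m = 1 := by
      intro p hp hpq
      have : p ∣ m := dvd_prod_of_mem _ (mem_erase.2 ⟨hpq, hp⟩)
      obtain ⟨k, hk⟩ := this
      rw [hk, pow_mul, wp_pow hζ hp, one_pow]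
    have hcop : Nat.Coprime m q := by
      rw [hm]
      apply Nat.Coprime.prod_left
      intro p hp
      exact (Nat.coprime_primes (Nat.prime_of_mem_primeFactors (mem_erase.1 hp).2) hqp).2
        (mem_erase.1 hp).1
    have hself : wp ζ d q ^ m ≠ 1 := by
      intro h1
      have h2 := pow_gcd_eq_one.2 ⟨h1, wp_pow hζ hq⟩
      rw [hcop.gcd_eq_one, pow_one] at h2
      exact wp_ne_one hd hζ hq h2
    rw [← prod_pow]
    by_cases hqS : q ∈ S
    · simp only [hqS, iff_true]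
      rw [prod_eq_single q (fun p hp hpq => hother p (hS hp) hpq) (fun h => absurd hqS h)]
      exact hself
    · simp only [hqS, iff_false, not_not]
      exact prod_eq_one fun p hp => hother p (hS hp) fun h => hqS (h ▸ hp)
  ext q
  by_cases hq : q ∈ d.primeFactors
  · rw [← key q hq T hT, ← key q hq T' hT', h]
  · exact ⟨fun h => absurd (hT h) hq, fun h => absurd (hT' h) hq⟩

end fourier

section signed

open Classical in
/-- the signed function -/
noncomputable def sgn {G : Type u} (φ : G → ℂ) (ζ : ℂ) (d : ℕ) : G → ℝ := fun x =>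
  ∑ T ∈ d.primeFactors.powerset, (-1) ^ T.card *
    (if φ x * ∏ p ∈ T, wp ζ d p = 1 then (1 : ℝ) else 0)

variable {G : Type u} [Group G] {φ : G → ℂ} {ζ : ℂ} {d : ℕ}

lemma sgn_values (hd : 0 < d) (hζ : IsPrimitiveRoot ζ d) (x : G) :
    sgn φ ζ d x = -1 ∨ sgn φ ζ d x = 0 ∨ sgn φ ζ d x = 1 := by
  classical
  by_cases h : ∃ T ∈ d.primeFactors.powerset, φ x * ∏ p ∈ T, wp ζ d p = 1
  · obtain ⟨T, hT, h1⟩ := h
    have h2 : sgn φ ζ d x = (-1) ^ T.card := by
      rw [sgn, sum_eq_single T]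
      · rw [if_pos h1, mul_one]
      · intro T' hT' hne
        rw [if_neg, mul_zero]
        intro h3
        apply hne
        have hx : φ x ≠ 0 := by
          intro h0; rw [h0, zero_mul] at h1; exact zero_ne_one h1
        exact prod_wp_inj hd hζ (mem_powerset.1 hT') (mem_powerset.1 hT)
          (mul_left_cancel₀ hx (h3.trans h1.symm))
      · intro h3; exact absurd hT h3
    rw [h2]
    rcases neg_one_pow_eq_or ℝ T.card with h3 | h3 <;> rw [h3]
    · exact Or.inr (Or.inr rfl)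
    · exact Or.inl rfl
  · push Not at h
    right; left
    rw [sgn]
    refine sum_eq_zero fun T hT => ?_
    rw [if_neg (h T hT), mul_zero]

lemma sgn_fourier (hd : 0 < d) (hζ : IsPrimitiveRoot ζ d) (hval : ∀ x, φ x ≠ 0 → φ x ^ d = 1)
    (x : G) : ((sgn φ ζ d x : ℝ) : ℂ) =
      (d : ℂ)⁻¹ * ∑ j ∈ range d, bk ζ d (j + 1) * φ x ^ (j + 1) := by
  classical
  have hd0 : (d : ℂ) ≠ 0 := Nat.cast_ne_zero.2 hd.ne'
  have hW : ∀ T ∈ d.primeFactors.powerset, (∏ p ∈ T, wp ζ d p) ^ d = 1 := by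
    intro T hT
    rw [← prod_pow]
    refine prod_eq_one fun p hp => ?_
    rw [wp, ← pow_mul, mul_comm, pow_mul, hζ.pow_eq_one, one_pow]
  have h1 : ∀ k, bk ζ d k = ∑ T ∈ d.primeFactors.powerset, (-1) ^ T.card *
      (∏ p ∈ T, wp ζ d p) ^ k := by
    intro k
    rw [bk]
    have := prod_sub (fun _ : ℕ => (1 : ℂ)) (fun p => wp ζ d p ^ k) d.primeFactors
    simpa [prod_pow] using this
  simp only [h1, sum_mul]
  rw [sum_comm, mul_sum, sgn]
  push_cast
  refine sum_congr rfl fun T hT => ?_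
  have h2 := ind_fourier (c := φ x * ∏ p ∈ T, wp ζ d p) (by
    intro h3
    rw [mul_pow, hW T hT, mul_one]
    exact hval x (left_ne_zero_of_mul h3))
  have h3 : ∑ j ∈ range d, (-1) ^ T.card * (∏ p ∈ T, wp ζ d p) ^ (j + 1) * φ x ^ (j + 1) =
      (-1) ^ T.card * ∑ j ∈ range d, (φ x * ∏ p ∈ T, wp ζ d p) ^ (j + 1) := by
    rw [mul_sum]
    refine sum_congr rfl fun j _ => ?_
    rw [mul_pow]; ring
  rw [h3, h2]
  by_cases h4 : φ x * ∏ p ∈ T, wp ζ d p = 1
  · rw [if_pos h4, if_pos h4, Complex.ofReal_one, mul_one, mul_comm ((-1 : ℂ) ^ T.card),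
      ← mul_assoc, inv_mul_cancel₀ hd0, one_mul]
  · rw [if_neg h4, if_neg h4]; simp

/-- the character is a combination of translates of its signed function -/
lemma char_of_sgn (hφ : LinChar φ) {z : G} (hd : 0 < d) (hζ : IsPrimitiveRoot (φ z) d)
    (hval : ∀ x, φ x ≠ 0 → φ x ^ d = 1) (x : G) :
    bk (φ z) d 1 * φ x =
      ∑ i ∈ range d, ((φ z)⁻¹) ^ i * ((sgn φ (φ z) d (z ^ i * x) : ℝ) : ℂ) := by
  have hd0 : (d : ℂ) ≠ 0 := Nat.cast_ne_zero.2 hd.ne'
  have hz : φ z ≠ 0 := hζ.ne_zero hd.ne'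
  have h1 : ∀ i, φ (z ^ i * x) = φ z ^ i * φ x := by
    intro i
    rw [hφ.mul_left _ _ (by rw [hφ.pow_apply hz]; exact pow_ne_zero _ hz), hφ.pow_apply hz]
  simp_rw [sgn_fourier hd hζ hval, h1, mul_sum]
  rw [sum_comm, sum_eq_single 0]
  · have h2 : ∀ i ∈ range d, (φ z)⁻¹ ^ i * ((d : ℂ)⁻¹ * (bk (φ z) d (0 + 1) *
        (φ z ^ i * φ x) ^ (0 + 1))) = (d : ℂ)⁻¹ * (bk (φ z) d 1 * φ x) := by
      intro i _
      rw [zero_add, pow_one, inv_pow]
      have := pow_ne_zero i hz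
      field_simp
    rw [sum_congr rfl h2, sum_const, card_range, nsmul_eq_mul, ← mul_assoc, mul_inv_cancel₀ hd0,
      one_mul]
  · intro j hj hj0
    have h3 : ∀ i ∈ range d, (φ z)⁻¹ ^ i * ((d : ℂ)⁻¹ * (bk (φ z) d (j + 1) *
        (φ z ^ i * φ x) ^ (j + 1))) =
        ((d : ℂ)⁻¹ * bk (φ z) d (j + 1) * φ x ^ (j + 1)) * (φ z ^ j) ^ i := by
      intro i _
      have e : (φ z ^ i * φ x) ^ (j + 1) = φ z ^ i * (φ z ^ j) ^ i * φ x ^ (j + 1) := by
        rw [mul_pow, ← pow_mul, ← pow_mul, ← pow_add]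
        congr 2; ring
      rw [e, inv_pow]
      have := pow_ne_zero i hz
      field_simp
    rw [sum_congr rfl h3, ← mul_sum]
    have h4 : φ z ^ j ≠ 1 := hζ.pow_ne_one_of_pos_of_lt hj0 (mem_range.1 hj)
    have h5 : (φ z ^ j - 1) * ∑ i ∈ range d, (φ z ^ j) ^ i = 0 := by
      rw [mul_geom_sum, ← pow_mul, mul_comm, pow_mul, hζ.pow_eq_one, one_pow, sub_self]
    rcases mul_eq_zero.1 h5 with h | h
    · exact absurd (sub_eq_zero.1 h) h4
    · rw [h, mul_zero]
  · intro h; exact absurd (mem_range.2 hd) h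

end signed

end Vale.Agent.P318.R2.H867
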