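import Vale.Agent.P318.R2.H867.Mono4
import Vale.Agent.P318.R2.H202.Scheme

/-!
# Rational class functions on monomial groups: signed schemes
-/

open Finset

set_option linter.unusedSectionVars false

namespace Vale.Agent.P318.R2.H867

open Vale.Agent.P318.R2.H202

universe u

/-- the rational class of `g`: the cyclic subgroups conjugate to the one generated by `g` -/
def rcls {G : Type u} [Group G] (g : G) : Set (Subgroup G) :=
  {K | ∃ a : G, K = Subgroup.zpowers (a * g * a⁻¹)}

section rcls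

variable {G : Type u} [Group G]

lemma rcls_conj (a g : G) : rcls (a * g * a⁻¹) = rcls g := by
  ext K
  constructor
  · rintro ⟨b, rfl⟩
    exact ⟨b * a, by congr 1; group⟩
  · rintro ⟨b, rfl⟩
    exact ⟨b * a⁻¹, by congr 1; group⟩

lemma zpowers_pow [Finite G] {k : ℕ} (hk : Nat.Coprime k (Nat.card G)) (g : G) :
    Subgroup.zpowers (g ^ k) = Subgroup.zpowers g := by
  apply le_antisymm
  · rw [Subgroup.zpowers_le]
    exact Subgroup.pow_mem _ (Subgroup.mem_zpowers g) k
  · rw [Subgroup.zpowers_le]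
    have h1 := (powCoprime (G := G) hk.symm).left_inv g
    have h2 : (g ^ k) ^ (Nat.card G).gcdB k = g := h1
    rw [Subgroup.mem_zpowers_iff]
    exact ⟨_, h2⟩

lemma rcls_pow [Finite G] {k : ℕ} (hk : Nat.Coprime k (Nat.card G)) (g : G) :
    rcls (g ^ k) = rcls g := by
  ext K
  have h1 : ∀ a : G, Subgroup.zpowers (a * g ^ k * a⁻¹) = Subgroup.zpowers (a * g * a⁻¹) := by
    intro a
    rw [← conj_pow, zpowers_pow hk]
  constructor
  · rintro ⟨b, rfl⟩
    exact ⟨b, h1 b⟩
  · rintro ⟨b, rfl⟩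
    exact ⟨b, (h1 b).symm⟩

end rcls

section eigen

variable {G : Type u} [Group G] [Fintype G] {φ : G → ℂ}

lemma exists_coprime {d n k : ℕ} (hn : 0 < n) (hdn : d ∣ n) (hk : Nat.Coprime k d) :
    ∃ k', k' ≠ 0 ∧ Nat.Coprime k' n ∧ k' ≡ k [MOD d] := by
  have : NeZero n := ⟨hn.ne'⟩
  obtain ⟨u, hu⟩ := ZMod.unitsMap_surjective hdn (ZMod.unitOfCoprime k hk)
  refine ⟨(u : ZMod n).val + n, by omega, ?_, ?_⟩
  · rw [Nat.coprime_add_self_left]
    exact ZMod.val_coe_unit_coprime u
  · have h1 := congrArg (fun w : (ZMod d)ˣ => (w : ZMod d)) hu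
    simp only [ZMod.unitsMap_val, ZMod.coe_unitOfCoprime] at h1
    rw [← ZMod.natCast_eq_natCast_iff, ← h1]
    push_cast
    rw [(ZMod.natCast_eq_zero_iff n d).2 hdn, add_zero, ZMod.natCast_val]

/-- rational class functions have the same eigenvalue on Galois conjugate characters -/
lemma sum_pow_eq (hφ : LinChar φ) {c : G → ℂ} {k : ℕ} (hk0 : k ≠ 0)
    (hk : Nat.Coprime k (Nat.card G)) (hc : ∀ g, c (g ^ k) = c g) :
    ∑ y, c y * φ y ^ k = ∑ y, c y * φ y := by
  rw [← Equiv.sum_comp (powCoprime (G := G) hk.symm) (fun y => c y * φ y)]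
  refine sum_congr rfl fun y _ => ?_
  change _ = c (y ^ k) * φ (y ^ k)
  rw [hc]
  by_cases hy : φ y = 0
  · have h1 : φ (y ^ k) = 0 := by
      by_contra h2
      have h3 := (powCoprime (G := G) hk.symm).left_inv y
      have h4 : (y ^ k) ^ (Nat.card G).gcdB k = y := h3
      -- an integer power is a natural power
      have h5 : y ∈ Subgroup.zpowers (y ^ k) := Subgroup.mem_zpowers_iff.2 ⟨_, h4⟩
      rw [← mem_powers_iff_mem_zpowers] at h5
      obtain ⟨m, hm⟩ := Submonoid.mem_powers_iff _ _ |>.1 h5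
      have h6 : φ y = φ (y ^ k) ^ m := by rw [← hφ.pow_apply h2, hm]
      exact (pow_ne_zero m h2) (h6.symm.trans hy)
    rw [h1, hy, zero_pow hk0]
  · rw [hφ.pow_apply hy]

/-- the signed function is an eigenfunction of all rational class functions -/
lemma sgn_eigen (hφ : Isol φ) {z : G} {d : ℕ} (hd : 0 < d) (hζ : IsPrimitiveRoot (φ z) d)
    (hval : ∀ x, φ x ≠ 0 → φ x ^ d = 1) {c : G → ℂ} (hc : ∀ g x, c (g * x * g⁻¹) = c x)
    (hr : ∀ k, Nat.Coprime k (Nat.card G) → ∀ g, c (g ^ k) = c g) (x : G) :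
    ∑ y, c (x⁻¹ * y) * ((sgn φ (φ z) d y : ℝ) : ℂ) =
      (∑ y, c y * φ y) * ((sgn φ (φ z) d x : ℝ) : ℂ) := by
  have hz : φ z ≠ 0 := hζ.ne_zero hd.ne'
  have hdn : d ∣ Nat.card G := hζ.dvd_of_pow_eq_one _ (hφ.toLinChar.pow_card hz)
  have key : ∀ j, bk (φ z) d (j + 1) * ∑ y, c (x⁻¹ * y) * φ y ^ (j + 1) =
      bk (φ z) d (j + 1) * ((∑ y, c y * φ y) * φ x ^ (j + 1)) := by
    intro j
    by_cases hk : Nat.Coprime (j + 1) d
    · obtain ⟨k', hk0, hk', hmod⟩ := exists_coprime Nat.card_pos hdn hk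
      have hpow : ∀ y, φ y ^ (j + 1) = φ y ^ k' := by
        intro y
        by_cases hy : φ y = 0
        · rw [hy, zero_pow hk0, zero_pow (Nat.succ_ne_zero j)]
        · have h1 : orderOf (φ y) ∣ d := orderOf_dvd_of_pow_eq_one (hval y hy)
          have h2 : j + 1 ≡ k' [MOD orderOf (φ y)] := (hmod.of_dvd h1).symm
          rw [← pow_mod_orderOf, h2, pow_mod_orderOf]
      have h1 := (hφ.pow hk0 hk').eigen hc x
      simp only [hpow]
      rw [h1, sum_pow_eq hφ.toLinChar hk0 hk' (hr k' hk')]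
    · rw [bk_eq_zero hζ hk hd, zero_mul, zero_mul]
  simp_rw [sgn_fourier hd hζ hval]
  have h1 : ∑ y, c (x⁻¹ * y) * ((d : ℂ)⁻¹ * ∑ j ∈ range d, bk (φ z) d (j + 1) * φ y ^ (j + 1)) =
      (d : ℂ)⁻¹ * ∑ j ∈ range d, bk (φ z) d (j + 1) * ∑ y, c (x⁻¹ * y) * φ y ^ (j + 1) := by
    simp_rw [mul_sum]
    rw [sum_comm]
    refine sum_congr rfl fun j _ => sum_congr rfl fun y _ => by ring
  rw [h1]
  simp_rw [key, mul_sum]
  refine sum_congr rfl fun j _ => by ring

end eigen

/-- the relation: the rational class of the quotient -/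
def ratRel (G : Type u) [Group G] : G → G → Set (Subgroup G) := fun x y => rcls (x⁻¹ * y)

section final

variable {G : Type u} [Group G] [Fintype G]

lemma sgn_mem {φ : G → ℂ} (hφ : Isol φ) {z : G} {d : ℕ} (hd : 0 < d)
    (hζ : IsPrimitiveRoot (φ z) d) (hval : ∀ x, φ x ≠ 0 → φ x ^ d = 1) :
    sgn φ (φ z) d ∈ signedEigen (ratRel G) := by
  classical
  refine ⟨sgn_values hd hζ, fun r => ?_⟩
  let c : G → ℂ := fun w => if rcls w = r then 1 else 0
  refine ⟨(∑ y, c y * φ y).re, fun x => ?_⟩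
  have h1 := sgn_eigen hφ hd hζ hval (c := c) (fun g x => by simp only [c, rcls_conj])
    (fun k hk g => by simp only [c, rcls_pow hk]) x
  have h2 : ∑ y, c (x⁻¹ * y) * ((sgn φ (φ z) d y : ℝ) : ℂ) =
      ((∑ y ∈ univ.filter (fun y => ratRel G x y = r), sgn φ (φ z) d y : ℝ) : ℂ) := by
    rw [sum_filter]
    push_cast
    refine sum_congr rfl fun y _ => ?_
    by_cases h : rcls (x⁻¹ * y) = r
    · simp [c, ratRel, h]
    · simp [c, ratRel, h]
  rw [h2] at h1
  have h3 := congrArg Complex.re h1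
  rw [Complex.ofReal_re, Complex.re_mul_ofReal] at h3
  refine Eq.trans ?_ h3
  refine sum_congr ?_ fun _ _ => rfl
  ext y; simp

/-- left multiplication as an action on the set of elements -/
lemma ratRel_left (g x y : G) :
    ratRel G (MulAction.toPermHom G G g x) (MulAction.toPermHom G G g y) = ratRel G x y := by
  simp [ratRel, mul_assoc]

lemma translate_sgn_mem {f : G → ℝ} (hf : f ∈ signedEigen (ratRel G)) (g : G) :
    (fun x => f (g * x)) ∈ signedEigen (ratRel G) :=
  comp_mem (MulAction.toPermHom G G) ratRel_left hf g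

/-- real and imaginary parts of the span -/
lemma re_im_mem {u : G → ℂ} (hu : u ∈ Submodule.span ℂ (genSet G)) :
    (fun x => (u x).re) ∈ Submodule.span ℝ (signedEigen (ratRel G)) ∧
      (fun x => (u x).im) ∈ Submodule.span ℝ (signedEigen (ratRel G)) := by
  induction hu using Submodule.span_induction with
  | mem u hu =>
    obtain ⟨φ, hφ, a, rfl⟩ := hu
    obtain ⟨z, d, hd, hζ, hval⟩ := hφ.toLinChar.exists_gen
    have hb := bk_one_ne hd hζ
    have h1 : ∀ x, φ (a * x) = ∑ i ∈ range d, ((bk (φ z) d 1)⁻¹ * ((φ z)⁻¹) ^ i) *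
        ((sgn φ (φ z) d (z ^ i * a * x) : ℝ) : ℂ) := by
      intro x
      have h2 := char_of_sgn hφ.toLinChar hd hζ hval (a * x)
      have h3 : φ (a * x) = (bk (φ z) d 1)⁻¹ * (bk (φ z) d 1 * φ (a * x)) := by
        rw [← mul_assoc, inv_mul_cancel₀ hb, one_mul]
      rw [h3, h2, mul_sum]
      refine sum_congr rfl fun i _ => ?_
      rw [mul_assoc, mul_assoc (z ^ i)]
    have hmem : ∀ i, (fun x => sgn φ (φ z) d (z ^ i * a * x)) ∈
        Submodule.span ℝ (signedEigen (ratRel G)) := fun i =>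
      Submodule.subset_span (translate_sgn_mem (sgn_mem hφ hd hζ hval) _)
    constructor
    · have h4 : (fun x => (φ (a * x)).re) = ∑ i ∈ range d,
          ((bk (φ z) d 1)⁻¹ * ((φ z)⁻¹) ^ i).re • (fun x => sgn φ (φ z) d (z ^ i * a * x)) := by
        ext x
        rw [h1, Complex.re_sum, Finset.sum_apply]
        refine sum_congr rfl fun i _ => ?_
        rw [Complex.re_mul_ofReal]; rfl
      rw [h4]
      exact Submodule.sum_mem _ fun i _ => Submodule.smul_mem _ _ (hmem i)
    · have h4 : (fun x => (φ (a * x)).im) = ∑ i ∈ range d,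
          ((bk (φ z) d 1)⁻¹ * ((φ z)⁻¹) ^ i).im • (fun x => sgn φ (φ z) d (z ^ i * a * x)) := by
        ext x
        rw [h1, Complex.im_sum, Finset.sum_apply]
        refine sum_congr rfl fun i _ => ?_
        rw [Complex.im_mul_ofReal]; rfl
      rw [h4]
      exact Submodule.sum_mem _ fun i _ => Submodule.smul_mem _ _ (hmem i)
  | zero => exact ⟨Submodule.zero_mem _, Submodule.zero_mem _⟩
  | add u v _ _ h1 h2 =>
    exact ⟨Submodule.add_mem _ h1.1 h2.1, Submodule.add_mem _ h1.2 h2.2⟩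
  | smul c u _ h1 =>
    constructor
    · have h2 := Submodule.sub_mem _ (Submodule.smul_mem _ c.re h1.1)
        (Submodule.smul_mem _ c.im h1.2)
      convert h2 using 1
      ext x
      simp [Complex.mul_re]
    · have h2 := Submodule.add_mem _ (Submodule.smul_mem _ c.re h1.2)
        (Submodule.smul_mem _ c.im h1.1)
      convert h2 using 1
      ext x
      simp [Complex.mul_im]

theorem signed_mono (hG : SecAb G) : SignedScheme (ratRel G) := by
  classical
  refine ⟨?_, ?_⟩
  · refine one_mem_of_transitive (MulAction.toPermHom G G) ratRel_left fun x y => ?_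
    exact ⟨y * x⁻¹, by simp⟩
  · apply span_eq_top_of_single
    intro a
    have h1 := (re_im_mem (full_of_delta (delta_mem _ G rfl hG)
      (Pi.single a 1 : G → ℂ))).1
    convert h1 using 1
    ext x
    by_cases hx : x = a
    · subst hx; simp
    · simp [hx]

end final

end Vale.Agent.P318.R2.H867
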