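import Vale.Agent.P318.R2.H867.Mono5
import Vale.Agent.P318.R2.H221.Gen
import Vale.Agent.P318.R2.H344.Abel

/-!
# Rational conjugation invariant weights: no loss in the linear characters

For weights with `c (g ^ k) = c g` for all `k` prime to `|G|` the linear part of the proof of
`R2.H221.main_gen` loses only a constant.
-/

open Finset

set_option linter.unusedSectionVars false

namespace Vale.Agent.P318.R2.H867

open Vale.Agent.P318.H867 Vale.Agent.P318.R2.H202 Vale.Agent.P318.R2.H221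
open Vale.Agent.P318.R2.H356

section abel

variable {A : Type*} [AddCommGroup A] [Fintype A] [DecidableEq A]

lemma exists_fun_zmultiples {cb : A → ℝ}
    (h : ∀ z w, AddSubgroup.zmultiples z = AddSubgroup.zmultiples w → cb z = cb w) :
    ∃ f : AddSubgroup A → ℝ, ∀ z, f (AddSubgroup.zmultiples z) = cb z := by
  classical
  refine ⟨fun H => if hH : ∃ z, AddSubgroup.zmultiples z = H then cb hH.choose else 0, ?_⟩
  intro z
  have hex : ∃ w, AddSubgroup.zmultiples w = AddSubgroup.zmultiples z := ⟨z, rfl⟩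
  simp only [dif_pos hex]
  exact h _ _ hex.choose_spec

/-- the bound of one character for rational weights on an abelian group -/
lemma char_bound {cb : A → ℝ} (hc : ∀ z, 0 ≤ cb z) (hs : ∀ z, cb (-z) = cb z)
    (hr : ∀ z w, AddSubgroup.zmultiples z = AddSubgroup.zmultiples w → cb z = cb w)
    {χ : AddChar A ℂ} (hχ : χ ≠ 0) :
    phi (fun x y : A => cb (x - y)) * Fintype.card A ≤ ∑ z, cb z * Q χ z := by
  classical
  obtain ⟨f, hf⟩ := exists_fun_zmultiples hr
  have hmain := (R2.H344.signed_abel A).main f (fun x y => by rw [hf]; exact hc _)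
    (fun x y => by
      have h1 : y - x = -(x - y) := by abel
      rw [hf, hf, h1, hs])
  simp only [hf] at hmain
  have hkey := hmain.1
  have h1 := hkey (fun x => (χ x).re)
  have h2 := hkey (fun x => (χ x).im)
  have hn : ∀ x y, ((χ x).re - (χ y).re) ^ 2 + ((χ x).im - (χ y).im) ^ 2 = Q χ (x - y) := by
    intro x y
    have h3 : ‖χ x - χ y‖ ^ 2 = ((χ x).re - (χ y).re) ^ 2 + ((χ x).im - (χ y).im) ^ 2 := by
      rw [← Complex.normSq_eq_norm_sq, Complex.normSq_apply, Complex.sub_re, Complex.sub_im]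
      ring
    rw [← h3, Q]
    have h4 : χ x - χ y = -(χ y) * (1 - χ (x - y)) := by
      have h5 : χ y * χ (x - y) = χ x := by
        rw [← χ.map_add_eq_mul]; congr 1; abel
      rw [mul_sub, mul_one, neg_mul, h5]; ring
    rw [h4, norm_mul, norm_neg, χ.norm_apply, one_mul]
  have hsum : ∀ w : A → A → ℝ, ∑ x, ∑ y, w x y * ((χ x).re - (χ y).re) ^ 2 +
      ∑ x, ∑ y, w x y * ((χ x).im - (χ y).im) ^ 2 = ∑ x, ∑ y, w x y * Q χ (x - y) := by
    intro w
    rw [← sum_add_distrib]
    refine sum_congr rfl fun x _ => ?_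
    rw [← sum_add_distrib]
    refine sum_congr rfl fun y _ => ?_
    rw [← mul_add, hn]
  have hconv : ∀ g : A → ℝ, ∑ x, ∑ y, g (x - y) = Fintype.card A * ∑ z, g z := by
    intro g
    have : ∀ x : A, ∑ y, g (x - y) = ∑ z, g z := fun x =>
      Equiv.sum_comp (Equiv.subLeft x) g
    simp_rw [this]
    rw [sum_const, card_univ, nsmul_eq_mul]
  have hA := hsum (fun _ _ => 1)
  have hB := hsum (fun x y => cb (x - y))
  simp only [one_mul] at hA
  have e1 : ∑ x : A, ∑ y : A, Q χ (x - y) = Fintype.card A * (2 * Fintype.card A) := by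
    rw [hconv (Q χ), sum_Q hχ]
  have e2 : ∑ x : A, ∑ y : A, cb (x - y) * Q χ (x - y) = Fintype.card A * ∑ z, cb z * Q χ z :=
    hconv (fun z => cb z * Q χ z)
  have h3 : phi (fun x y : A => cb (x - y)) * (Fintype.card A * (2 * Fintype.card A)) ≤
      2 * (Fintype.card A * ∑ z, cb z * Q χ z) := by
    rw [← e1, ← e2, ← hA, ← hB]
    linarith
  have hpos : (0 : ℝ) < 2 * Fintype.card A := by
    have := Fintype.card_pos (α := A)
    positivity
  have h4 : (phi (fun x y : A => cb (x - y)) * Fintype.card A) * (2 * Fintype.card A) ≤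
      (∑ z, cb z * Q χ z) * (2 * Fintype.card A) := by linarith
  exact le_of_mul_le_mul_right h4 hpos

end abel

section lin

variable {G : Type*} [Group G] [Fintype G] [DecidableEq G]

/-- the push-forward of a rational weight is rational -/
lemma push_rat [Fintype (Ab G)] [DecidableEq (Ab G)] {c : G → ℝ}
    (hr : ∀ k, Nat.Coprime k (Nat.card G) → ∀ g, c (g ^ k) = c g) (z w : Ab G)
    (hzw : AddSubgroup.zmultiples z = AddSubgroup.zmultiples w) :
    (if z = 0 then 0 else ∑ g with pr g = z, c g) =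
      (if w = 0 then 0 else ∑ g with pr g = w, c g) := by
  -- `w` is a multiple of `z` by a number prime to the order
  have hpow : ∀ (m : ℕ) (g : G), pr (g ^ m) = m • pr g := by
    intro m g
    induction m with
    | zero => simp [pr_one]
    | succ m ih => rw [pow_succ, pr_mul, ih, succ_nsmul]
  obtain ⟨g₀, hg₀⟩ := pr_surj z
  have hdvd : addOrderOf z ∣ Nat.card G := by
    rw [addOrderOf_dvd_iff_nsmul_eq_zero, ← hg₀, ← hpow, pow_card_eq_one', pr_one]
  have hw : w ∈ AddSubgroup.zmultiples z := by rw [hzw]; exact AddSubgroup.mem_zmultiples w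
  have hfin : IsOfFinAddOrder z := isOfFinAddOrder_of_finite z
  rw [← mem_multiples_iff_mem_zmultiples] at hw
  obtain ⟨k, hk⟩ := hw
  have hk' : k • z = w := hk
  have hcop : Nat.Coprime k (addOrderOf z) := by
    have h1 : addOrderOf (k • z) = addOrderOf z := by
      have h2 : Nat.card (AddSubgroup.zmultiples (k • z)) = Nat.card (AddSubgroup.zmultiples z) := by
        rw [hk', hzw]
      rwa [Nat.card_zmultiples, Nat.card_zmultiples] at h2
    have h3 := addOrderOf_nsmul' z (n := k)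
    by_contra hcon
    have hg : 1 < Nat.gcd (addOrderOf z) k := by
      have h4 : Nat.gcd (addOrderOf z) k ≠ 1 := fun h => hcon (by rw [Nat.Coprime, Nat.gcd_comm]; exact h)
      have h5 : 0 < Nat.gcd (addOrderOf z) k := Nat.gcd_pos_of_pos_left _ hfin.addOrderOf_pos
      omega
    have h6 : addOrderOf (k • z) = addOrderOf z / Nat.gcd (addOrderOf z) k :=
      IsOfFinAddOrder.addOrderOf_nsmul z k hfin
    rw [h1] at h6
    have h7 := Nat.div_lt_self hfin.addOrderOf_pos hg
    omega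
  obtain ⟨k', hk0, hk'c, hmod⟩ := exists_coprime Nat.card_pos hdvd hcop
  have hw' : w = k' • z := by
    rw [← hk']
    exact (nsmul_eq_nsmul_iff_modEq.2 hmod).symm
  have hz0 : z = 0 ↔ w = 0 := by
    rw [← AddSubgroup.zmultiples_eq_bot, ← AddSubgroup.zmultiples_eq_bot, hzw]
  by_cases h0 : z = 0
  · rw [if_pos h0, if_pos (hz0.1 h0)]
  · rw [if_neg h0, if_neg (fun h => h0 (hz0.2 h))]
    refine sum_bij (fun g _ => g ^ k') ?_ ?_ ?_ ?_
    · intro g hg
      rw [mem_filter] at hg ⊢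
      exact ⟨mem_univ _, by rw [hpow, hg.2, hw']⟩
    · intro a _ b _ hab
      exact (powCoprime (G := G) hk'c.symm).injective hab
    · intro g hg
      rw [mem_filter] at hg
      obtain ⟨y, hy⟩ := (powCoprime (G := G) hk'c.symm).surjective g
      have hy' : y ^ k' = g := hy
      refine ⟨y, ?_, hy'⟩
      rw [mem_filter]
      refine ⟨mem_univ _, ?_⟩
      -- the power map is injective on the abelianization
      have h1 : k' • pr y = k' • z := by rw [← hpow, hy', hg.2, hw']
      have h2 : k' • (pr y - z) = 0 := by rw [nsmul_sub, h1, sub_self]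
      obtain ⟨g₁, hg₁⟩ := pr_surj (pr y - z)
      have h3 : addOrderOf (pr y - z) ∣ k' := addOrderOf_dvd_iff_nsmul_eq_zero.2 h2
      have h4 : addOrderOf (pr y - z) ∣ Nat.card G := by
        rw [addOrderOf_dvd_iff_nsmul_eq_zero, ← hg₁, ← hpow, pow_card_eq_one', pr_one]
      have h5 : addOrderOf (pr y - z) ∣ 1 := by
        rw [← hk'c.gcd_eq_one]; exact Nat.dvd_gcd h3 h4
      have h6 : pr y - z = 0 := by
        rw [← AddMonoid.addOrderOf_eq_one_iff]
        exact Nat.dvd_one.1 h5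
      exact sub_eq_zero.1 h6
    · intro g _
      exact (hr k' hk'c g).symm

/-- the linear part for rational weights -/
lemma lin_part_rat [Fintype (Ab G)] [DecidableEq (Ab G)] {c : G → ℝ} (hc : ∀ g, 0 ≤ c g)
    (hs : ∀ g, c g⁻¹ = c g) (hr : ∀ k, Nat.Coprime k (Nat.card G) → ∀ g, c (g ^ k) = c g)
    {F : G → ℝ} {A : AddChar (Ab G) ℂ → ℝ} (hA : ∀ χ, 0 ≤ A χ)
    (hAF : ∀ g, ∑ χ, A χ * Q χ (pr g) ≤ F g) :
    phi (fun x y : G => c (x⁻¹ * y)) * Fintype.card G *
        ∑ χ ∈ univ.erase (0 : AddChar (Ab G) ℂ), A χ ≤ ∑ g, c g * F g := by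
  set cb : Ab G → ℝ := fun z => if z = 0 then 0 else ∑ g with pr g = z, c g with hcb
  have hF0 : ∀ g, 0 ≤ F g := fun g =>
    (sum_nonneg fun χ _ => mul_nonneg (hA χ) (Q_nonneg χ (pr g))).trans (hAF g)
  have hcF0 : 0 ≤ ∑ g, c g * F g := sum_nonneg fun g _ => mul_nonneg (hc g) (hF0 g)
  rcases (sum_nonneg fun χ _ => hA χ :
    0 ≤ ∑ χ ∈ univ.erase (0 : AddChar (Ab G) ℂ), A χ).eq_or_lt with hT | hTpos
  · rw [← hT, mul_zero]
    exact hcF0
  have hnt : Nontrivial (Ab G) := by
    by_contra hcon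
    rw [not_nontrivial_iff_subsingleton] at hcon
    have hz : ∀ χ : AddChar (Ab G) ℂ, χ = 0 := by
      intro χ
      ext z
      rw [Subsingleton.elim z 0, AddChar.map_zero_eq_one, AddChar.map_zero_eq_one]
    have : univ.erase (0 : AddChar (Ab G) ℂ) = ∅ := by
      ext χ
      simp [hz χ]
    rw [this, sum_empty] at hTpos
    exact lt_irrefl _ hTpos
  have hcb0 : ∀ z, 0 ≤ cb z := by
    intro z
    simp only [hcb]
    split_ifs
    · exact le_rfl
    · exact sum_nonneg fun g _ => hc g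
  have hcbs : ∀ z, cb (-z) = cb z := by
    intro z
    simp only [hcb, neg_eq_zero]
    split_ifs
    · rfl
    · refine sum_bij (fun g _ => g⁻¹) ?_ ?_ ?_ ?_
      · intro g hg
        rw [mem_filter] at hg ⊢
        exact ⟨mem_univ _, by rw [pr_inv, hg.2, neg_neg]⟩
      · intro a _ b _ hab
        exact inv_injective hab
      · intro g hg
        rw [mem_filter] at hg
        exact ⟨g⁻¹, mem_filter.2 ⟨mem_univ _, by rw [pr_inv, hg.2]⟩, inv_inv g⟩
      · intro g _
        rw [hs]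
  have hpush : phi (fun x y : G => c (x⁻¹ * y)) * Fintype.card G ≤
      phi (fun x y : Ab G => cb (x - y)) * Fintype.card (Ab G) := R2.H402.phi_push hc hs
  have hchar : ∀ χ ∈ univ.erase (0 : AddChar (Ab G) ℂ),
      phi (fun x y : G => c (x⁻¹ * y)) * Fintype.card G * A χ ≤
        A χ * ∑ z, cb z * Q χ z := by
    intro χ hχ
    have h1 := char_bound hcb0 hcbs (push_rat hr) (mem_erase.1 hχ).1
    rw [mul_comm]
    exact mul_le_mul_of_nonneg_left (hpush.trans h1) (hA χ)
  have hz : ∀ z, ∑ χ, A χ * (cb z * Q χ z) = cb z * ∑ χ, A χ * Q χ z := by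
    intro z
    rw [mul_sum]
    exact sum_congr rfl fun χ _ => by ring
  calc phi (fun x y : G => c (x⁻¹ * y)) * Fintype.card G *
        ∑ χ ∈ univ.erase (0 : AddChar (Ab G) ℂ), A χ
      = ∑ χ ∈ univ.erase (0 : AddChar (Ab G) ℂ),
          phi (fun x y : G => c (x⁻¹ * y)) * Fintype.card G * A χ := by rw [mul_sum]
    _ ≤ ∑ χ ∈ univ.erase (0 : AddChar (Ab G) ℂ), A χ * ∑ z, cb z * Q χ z := sum_le_sum hchar
    _ ≤ ∑ χ, A χ * ∑ z, cb z * Q χ z := by
        refine sum_le_sum_of_subset_of_nonneg (erase_subset _ _) fun χ _ _ => ?_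
        exact mul_nonneg (hA χ) (sum_nonneg fun z _ => mul_nonneg (hcb0 z) (Q_nonneg χ z))
    _ = ∑ z, cb z * ∑ χ, A χ * Q χ z := by
        simp_rw [mul_sum (s := (univ : Finset (Ab G)))]
        rw [sum_comm]
        exact sum_congr rfl fun z _ => hz z
    _ ≤ ∑ z, (∑ g with pr g = z, c g) * ∑ χ, A χ * Q χ z := by
        refine sum_le_sum fun z _ => mul_le_mul_of_nonneg_right ?_
          (sum_nonneg fun χ _ => mul_nonneg (hA χ) (Q_nonneg χ z))
        simp only [hcb]
        split_ifs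
        · exact sum_nonneg fun g _ => hc g
        · exact le_rfl
    _ = ∑ g, c g * ∑ χ, A χ * Q χ (pr g) :=
        (R2.H402.sum_coset c (fun z => ∑ χ, A χ * Q χ z)).symm
    _ ≤ ∑ g, c g * F g := sum_le_sum fun g _ => mul_le_mul_of_nonneg_left (hAF g) (hc g)

/-- **Rational conjugation invariant weights**: the constant does not see the abelianization. -/
theorem main_phi_rat [Nontrivial G] {c : G → ℝ} (hc : ∀ g, 0 ≤ c g)
    (hs : ∀ g, c g⁻¹ = c g) (hcl : ∀ x g, c (x * g * x⁻¹) = c g)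
    (hr : ∀ k, Nat.Coprime k (Nat.card G) → ∀ g, c (g ^ k) = c g) {K : ℝ} (hK : 0 ≤ K)
    (hsub : ∀ α : G → ℂ, IsChr α → (∃ g, ‖α g‖ ≠ 1) →
      phi (fun x y : G => c (x⁻¹ * y)) * Fintype.card G ≤
        2 * (K * ∑ g, c g * (1 - (α g).re))) :
    phi (fun x y : G => c (x⁻¹ * y)) ≤ (2 * K + 2) * glValue (fun x y : G => c (x⁻¹ * y)) := by
  classical
  let _ : Fintype (Ab G) := Fintype.ofFinite _
  let _ : Fintype (commutator G) := Fintype.ofFinite _
  have hG : (0 : ℝ) < Fintype.card G := by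
    have := Fintype.card_pos (α := G)
    positivity
  apply R2.H221.phi_le_gl (by positivity)
  intro d hd h1
  obtain ⟨F, h', A, hadd, hinv, hcF, hA, h0, hF, hsum⟩ := R2.H378.avg hd h1
  have hcF' := hcF c hcl
  set O := (∑ i, ∑ j, c (i⁻¹ * j) * d i j) / 2 with hO
  have hO2 : ∑ g, c g * F g = 2 * Fintype.card G * O := by
    rw [hcF', hO]; ring
  have hA' : ∀ g : G, 0 ≤ ∑ χ, A χ * Q χ (pr g) := fun g =>
    sum_nonneg fun χ _ => mul_nonneg (hA χ) (Q_nonneg χ _)
  have hh' : ∀ g : G, 0 ≤ ∑ i, ∑ x, (h' i (x * g) - h' i x) ^ 2 := fun g =>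
    sum_nonneg fun i _ => sum_nonneg fun x _ => sq_nonneg _
  have hE : ∑ g, c g * ∑ i, ∑ x, (h' i (x * g) - h' i x) ^ 2 ≤ 2 * Fintype.card G * O := by
    rw [← hO2]
    refine sum_le_sum fun g _ => mul_le_mul_of_nonneg_left ?_ (hc g)
    rw [hF g]
    exact le_add_of_nonneg_left (hA' g)
  have h2 := nonlin_part hc hs hcl hK hsub h0 hE
  have h3 := lin_part_rat (F := F) hc hs hr hA (fun g => by
    rw [hF g]
    exact le_add_of_nonneg_right (hh' g))
  rw [hO2] at h3
  have hkey : phi (fun x y : G => c (x⁻¹ * y)) * Fintype.card G ≤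
      (2 * K + 2) * O * Fintype.card G := by
    have h4 : phi (fun x y : G => c (x⁻¹ * y)) * Fintype.card G =
        phi (fun x y : G => c (x⁻¹ * y)) * Fintype.card G *
          ∑ χ ∈ univ.erase (0 : AddChar (Ab G) ℂ), A χ +
        phi (fun x y : G => c (x⁻¹ * y)) * Fintype.card G * ∑ i, ∑ x, (h' i x) ^ 2 := by
      rw [← mul_add]
      exact ((congrArg _ hsum).trans (mul_one _)).symm
    rw [h4]
    calc _ ≤ 2 * Fintype.card G * O + K * (2 * Fintype.card G * O) :=
          add_le_add h3 h2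
      _ = _ := by ring
  exact le_of_mul_le_mul_right hkey hG

open Classical in
/-- The assembly for rational weights, with subgroup cuts. -/
theorem main_gen_rat {G : Type*} [Group G] [Fintype G] [DecidableEq G] [Nontrivial G] {c : G → ℝ}
    (hc : ∀ g, 0 ≤ c g) (hs : ∀ g, c g⁻¹ = c g) (hcl : ∀ x g, c (x * g * x⁻¹) = c g)
    (hr : ∀ k, Nat.Coprime k (Nat.card G) → ∀ g, c (g ^ k) = c g) {K : ℝ}
    (hK : 0 ≤ K)
    (hnl : ∀ α : G → ℂ, IsChr α → (∃ g, ‖α g‖ ≠ 1) →
      ∃ H : Subgroup G, H ≠ ⊤ ∧ ∑ g with g ∉ H, c g ≤ K * ∑ g, c g * (1 - (α g).re)) :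
    phi (fun x y : G => c (x⁻¹ * y)) ≤ (2 * K + 2) * glValue (fun x y : G => c (x⁻¹ * y)) := by
  refine main_phi_rat hc hs hcl hr hK fun α hα h1 => ?_
  obtain ⟨H, hH, hcut⟩ := hnl α hα h1
  have h5 := R2.H402.phi_le_subgroup hc hH
  linarith

end lin

end Vale.Agent.P318.R2.H867
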