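import Vale.Agent.P318.R2.H867.RatLin

/-!
# Rational conjugation invariant weights: the spectral inequality
-/

open Finset

set_option linter.unusedSectionVars false

namespace Vale.Agent.P318.R2.H867

open Vale.Agent.P318.H867 Vale.Agent.P318.R2.H202 Vale.Agent.P318.R2.H221
open Vale.Agent.P318.R2.H356

section energy

variable {G : Type*} [Group G] [Fintype G] [DecidableEq G]

/-- weights on cyclic subgroups are invariant under the powers prime to the order -/
lemma rat_pow {G : Type*} [Group G] [Finite G] {c : G → ℝ}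
    (h : ∀ g h, Subgroup.zpowers g = Subgroup.zpowers h → c g = c h) :
    ∀ k, Nat.Coprime k (Nat.card G) → ∀ g, c (g ^ k) = c g :=
  fun _ hk g => h _ _ (zpowers_pow hk g)

/-- the energy of a function on a group -/
def En (c : G → ℝ) (f : G → ℝ) : ℝ := ∑ g, c g * ∑ x, (f (x * g) - f x) ^ 2

lemma sum_sum_eq_En (c : G → ℝ) (f : G → ℝ) :
    ∑ x, ∑ y, c (x⁻¹ * y) * (f x - f y) ^ 2 = En c f := by
  unfold En
  simp_rw [mul_sum]
  conv_rhs => rw [sum_comm]
  refine sum_congr rfl fun x _ => ?_
  rw [← Equiv.sum_comp (Equiv.mulLeft x)]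
  refine sum_congr rfl fun g _ => ?_
  simp only [Equiv.coe_mulLeft, inv_mul_cancel_left]
  ring

lemma sum_sum_eq_En_one (f : G → ℝ) : ∑ x, ∑ y, (f x - f y) ^ 2 = En (fun _ => 1) f := by
  have := sum_sum_eq_En (fun _ : G => (1 : ℝ)) f
  simpa using this

variable [Fintype (commutator G)]

/-- the average over the cosets of the commutator subgroup -/
noncomputable def av (u : G → ℝ) : G → ℝ := fun x =>
  (Fintype.card (commutator G) : ℝ)⁻¹ * ∑ h : commutator G, u (x * h)

lemma card_comm_ne : (Fintype.card (commutator G) : ℝ) ≠ 0 := by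
  exact_mod_cast Fintype.card_ne_zero

lemma sum_shift (u : G → ℝ) (x : G) (h : commutator G) :
    ∑ k : commutator G, u (x * h * k) = ∑ k : commutator G, u (x * k) := by
  have h1 := Equiv.sum_comp (Equiv.mulLeft h) (fun k : commutator G => u (x * k))
  rw [← h1]
  refine sum_congr rfl fun k _ => ?_
  simp [mul_assoc]

/-- sums over a coset can be moved through a translation -/
lemma sum_conj (u : G → ℝ) (x g : G) :
    ∑ k : commutator G, u (x * k * g) = ∑ k : commutator G, u (x * g * k) := by
  have hn : ∀ k : commutator G, g⁻¹ * (k : G) * g ∈ commutator G := by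
    intro k
    have := (inferInstance : (commutator G).Normal).conj_mem k k.2 g⁻¹
    rwa [inv_inv] at this
  have hn' : ∀ k : commutator G, g * (k : G) * g⁻¹ ∈ commutator G := fun k =>
    (inferInstance : (commutator G).Normal).conj_mem k k.2 g
  let e : commutator G ≃ commutator G :=
    { toFun := fun k => ⟨g⁻¹ * k * g, hn k⟩
      invFun := fun k => ⟨g * k * g⁻¹, hn' k⟩
      left_inv := fun k => Subtype.ext (by simp [mul_assoc])
      right_inv := fun k => Subtype.ext (by simp [mul_assoc]) }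
  have h1 := Equiv.sum_comp e (fun k : commutator G => u (x * g * k))
  rw [← h1]
  refine sum_congr rfl fun k _ => ?_
  congr 1
  simp [e, mul_assoc]

lemma av_mul (u : G → ℝ) (x : G) (h : commutator G) : av u (x * h) = av u x := by
  unfold av
  rw [sum_shift]

lemma av_conj (u : G → ℝ) (x g : G) (h : commutator G) : av u (x * h * g) = av u (x * g) := by
  have h1 : x * h * g = x * g * ((⟨g⁻¹ * h * g, by
    have := (inferInstance : (commutator G).Normal).conj_mem h h.2 g⁻¹
    rwa [inv_inv] at this⟩ : commutator G) : G) := by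
    simp [mul_assoc]
  rw [h1, av_mul]

lemma sum_sub_av (u : G → ℝ) (x : G) :
    ∑ h : commutator G, (u (x * h) - av u (x * h)) = 0 := by
  simp_rw [av_mul]
  rw [sum_sub_distrib, sum_const, card_univ, nsmul_eq_mul]
  unfold av
  rw [← mul_assoc, mul_inv_cancel₀ card_comm_ne, one_mul, sub_self]

/-- the energy splits -/
lemma En_split (c : G → ℝ) (u : G → ℝ) :
    En c u = En c (av u) + En c (fun x => u x - av u x) := by
  unfold En
  rw [← sum_add_distrib]
  refine sum_congr rfl fun g _ => ?_
  rw [← mul_add]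
  congr 1
  set a : G → ℝ := fun x => av u (x * g) - av u x with ha
  set b : G → ℝ := fun x => (u (x * g) - av u (x * g)) - (u x - av u x) with hb
  have ha' : ∀ x, ∀ h : commutator G, a (x * h) = a x := by
    intro x h
    simp only [ha, av_mul, av_conj]
  have hb' : ∀ x, ∑ h : commutator G, b (x * h) = 0 := by
    intro x
    simp only [hb]
    rw [sum_sub_distrib, sum_sub_av, sub_zero, sum_conj (fun y => u y - av u y), sum_sub_av]
  have hcross : ∑ x, a x * b x = 0 := by
    have h1 : (Fintype.card (commutator G) : ℝ) * ∑ x, a x * b x = 0 := by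
      calc (Fintype.card (commutator G) : ℝ) * ∑ x, a x * b x
          = ∑ h : commutator G, ∑ x, a x * b x := by
            rw [sum_const, card_univ, nsmul_eq_mul]
        _ = ∑ h : commutator G, ∑ x, a (x * h) * b (x * h) := by
            refine sum_congr rfl fun h _ => ?_
            rw [← Equiv.sum_comp (Equiv.mulRight (h : G))]
            rfl
        _ = ∑ h : commutator G, ∑ x, a x * b (x * h) := by
            refine sum_congr rfl fun h _ => sum_congr rfl fun x _ => ?_
            rw [ha']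
        _ = ∑ x, a x * ∑ h : commutator G, b (x * h) := by
            rw [sum_comm]
            exact sum_congr rfl fun x _ => (mul_sum _ _ _).symm
        _ = 0 := by simp [hb']
    exact (mul_eq_zero.1 h1).resolve_left card_comm_ne
  have h2 : ∀ x, (u (x * g) - u x) ^ 2 = a x ^ 2 + b x ^ 2 + 2 * (a x * b x) := by
    intro x
    simp only [ha, hb]; ring
  simp_rw [h2]
  rw [sum_add_distrib, sum_add_distrib, ← mul_sum, hcross, mul_zero, add_zero]

end energy

section parts

variable {G : Type*} [Group G] [Fintype G] [DecidableEq G] [Fintype (commutator G)]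

lemma sum_zero_of_coset {w : G → ℝ} (h0 : ∀ x, ∑ h : commutator G, w (x * h) = 0) :
    ∑ x, w x = 0 := by
  have h1 : (Fintype.card (commutator G) : ℝ) * ∑ x, w x = 0 := by
    calc (Fintype.card (commutator G) : ℝ) * ∑ x, w x
        = ∑ h : commutator G, ∑ x, w x := by rw [sum_const, card_univ, nsmul_eq_mul]
      _ = ∑ h : commutator G, ∑ x, w (x * h) := by
          refine sum_congr rfl fun h _ => ?_
          rw [← Equiv.sum_comp (Equiv.mulRight (h : G))]
          rfl
      _ = ∑ x, ∑ h : commutator G, w (x * h) := sum_comm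
      _ = 0 := by simp [h0]
  exact (mul_eq_zero.1 h1).resolve_left card_comm_ne

/-- the nonlinear part -/
lemma nonlin_spec {c : G → ℝ} (hc : ∀ g, 0 ≤ c g)
    (hs : ∀ g, c g⁻¹ = c g) (hcl : ∀ x g, c (x * g * x⁻¹) = c g) {K : ℝ} (hK : 0 ≤ K)
    (hsub : ∀ α : G → ℂ, IsChr α → (∃ g, ‖α g‖ ≠ 1) →
      phi (fun x y : G => c (x⁻¹ * y)) * Fintype.card G ≤
        2 * (K * ∑ g, c g * (1 - (α g).re)))
    {w : G → ℝ} (h0 : ∀ x, ∑ h : commutator G, w (x * h) = 0) :
    phi (fun x y : G => c (x⁻¹ * y)) * En (fun _ => 1) w ≤ 2 * K * En c w := by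
  classical
  have hone : En (fun _ : G => (1 : ℝ)) w = 2 * Fintype.card G * ∑ x, w x ^ 2 := by
    rw [← sum_sum_eq_En_one]
    have h1 := sum_zero_of_coset h0
    have h2 : ∀ x, ∑ y, (w x - w y) ^ 2 =
        Fintype.card G * w x ^ 2 + ∑ y, w y ^ 2 := by
      intro x
      have : ∀ y, (w x - w y) ^ 2 = w x ^ 2 - 2 * w x * w y + w y ^ 2 := fun y => by ring
      simp_rw [this]
      rw [sum_add_distrib, sum_sub_distrib, sum_const, card_univ, nsmul_eq_mul, ← mul_sum, h1]
      ring
    simp_rw [h2]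
    rw [sum_add_distrib, ← mul_sum, sum_const, card_univ, nsmul_eq_mul]
    ring
  let h' : G × G → G → ℝ := fun i => if i = (1, 1) then w else 0
  have hh0 : ∀ i x, ∑ h : commutator G, h' i (x * h) = 0 := by
    intro i x
    by_cases hi : i = (1, 1)
    · simp [h', hi, h0]
    · simp [h', hi]
  have hsum : ∀ F : (G → ℝ) → ℝ, F 0 = 0 → ∑ i, F (h' i) = F w := by
    intro F hF
    rw [sum_eq_single ((1, 1) : G × G)]
    · simp [h']
    · intro i _ hi
      simp [h', hi, hF]
    · intro h; exact absurd (mem_univ _) h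
  have h3 := nonlin_part hc hs hcl hK hsub hh0 (E := En c w) (by
    unfold En
    refine le_of_eq (sum_congr rfl fun g _ => ?_)
    congr 1
    exact hsum (fun f => ∑ x, (f (x * g) - f x) ^ 2) (by simp))
  rw [hsum (fun f => ∑ x, f x ^ 2) (by simp)] at h3
  rw [hone]
  linarith

/-- the linear part -/
lemma lin_spec {c : G → ℝ} (hc : ∀ g, 0 ≤ c g)
    (hs : ∀ g, c g⁻¹ = c g) (hr : ∀ k, Nat.Coprime k (Nat.card G) → ∀ g, c (g ^ k) = c g)
    {v : G → ℝ} (hv : ∀ x, ∀ h : commutator G, v (x * h) = v x) :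
    phi (fun x y : G => c (x⁻¹ * y)) * En (fun _ => 1) v ≤ 2 * En c v := by
  classical
  let _ : Fintype (Ab G) := Fintype.ofFinite _
  -- `v` comes from the abelianization
  obtain ⟨V, hV⟩ : ∃ V : Ab G → ℝ, ∀ x, v x = V (pr x) := by
    refine ⟨fun z => v (pr_surj z).choose, fun x => ?_⟩
    have h1 := (pr_surj (pr x)).choose_spec
    set y := (pr_surj (pr x)).choose with hy
    have h2 : Abelianization.of y = Abelianization.of x := h1
    have h3 : y⁻¹ * x ∈ commutator G := by
      rw [← Abelianization.ker_of, MonoidHom.mem_ker, map_mul, map_inv, h2, inv_mul_cancel]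
    have h4 := hv y ⟨y⁻¹ * x, h3⟩
    simp only [mul_inv_cancel_left] at h4
    exact h4
  by_cases hnt : Nontrivial (Ab G)
  swap
  · rw [not_nontrivial_iff_subsingleton] at hnt
    have hconst : ∀ x y, v x = v y := by
      intro x y
      rw [hV, hV, Subsingleton.elim (pr x) (pr y)]
    have hz : ∀ c' : G → ℝ, En c' v = 0 := by
      intro c'
      unfold En
      refine sum_eq_zero fun g _ => ?_
      rw [sum_eq_zero fun x _ => by rw [hconst (x * g) x]; ring, mul_zero]
    rw [hz, hz]; simp
  set cb : Ab G → ℝ := fun z => if z = 0 then 0 else ∑ g with pr g = z, c g with hcb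
  have hcb0 : ∀ z, 0 ≤ cb z := by
    intro z
    simp only [hcb]
    split_ifs
    · exact le_rfl
    · exact sum_nonneg fun g _ => hc g
  have hcbs : ∀ z, cb (-z) = cb z := by
    intro z
    simp only [hcb, neg_eq_zero]
    split_ifs
    · rfl
    · refine sum_bij (fun g _ => g⁻¹) ?_ ?_ ?_ ?_
      · intro g hg
        rw [mem_filter] at hg ⊢
        exact ⟨mem_univ _, by rw [pr_inv, hg.2, neg_neg]⟩
      · intro a _ b _ hab
        exact inv_injective hab
      · intro g hg
        rw [mem_filter] at hg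
        exact ⟨g⁻¹, mem_filter.2 ⟨mem_univ _, by rw [pr_inv, hg.2]⟩, inv_inv g⟩
      · intro g _
        rw [hs]
  obtain ⟨f, hf⟩ := exists_fun_zmultiples (push_rat (G := G) hr)
  have hmain := ((R2.H344.signed_abel (Ab G)).main f (fun x y => by rw [hf]; exact hcb0 _)
    (fun x y => by
      have h1 : y - x = -(x - y) := by abel
      rw [hf, hf, h1]; exact (hcbs _).symm)).1 V
  simp only [hf] at hmain
  change phi (fun x y : Ab G => cb (x - y)) * ∑ x, ∑ y, (V x - V y) ^ 2 ≤
    2 * ∑ x, ∑ y, cb (x - y) * (V x - V y) ^ 2 at hmain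
  -- sums over the group as sums over the abelianization
  set R : Ab G → ℝ := fun t => ∑ z, (V (z + t) - V z) ^ 2 with hR
  have hR0 : R 0 = 0 := by simp [hR]
  have hRn : ∀ t, 0 ≤ R t := fun t => sum_nonneg fun z _ => sq_nonneg _
  have hAb : ∀ g : Ab G → ℝ, ∑ x, ∑ y, g (y - x) * (V x - V y) ^ 2 = ∑ t, g t * R t := by
    intro g
    simp only [hR, mul_sum]
    rw [sum_comm (s := (univ : Finset (Ab G))) (f := fun t z => g t * (V (z + t) - V z) ^ 2)]
    refine sum_congr rfl fun x _ => ?_
    rw [← Equiv.sum_comp (Equiv.addLeft x)]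
    refine sum_congr rfl fun t _ => ?_
    simp only [Equiv.coe_addLeft, add_sub_cancel_left]
    ring
  set m : ℝ := Fintype.card G / Fintype.card (Ab G) with hm
  have hcardAb : (0 : ℝ) < Fintype.card (Ab G) := by
    exact_mod_cast Fintype.card_pos
  have hcardG : (0 : ℝ) < Fintype.card G := by
    exact_mod_cast Fintype.card_pos
  have hm0 : 0 < m := div_pos hcardG hcardAb
  have hfib : ∀ F : Ab G → ℝ, ∑ x : G, F (pr x) = m * ∑ z, F z := by
    intro F
    have h1 := R2.H402.sum_coset (G := G) (fun _ => 1) F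
    simp only [one_mul] at h1
    change ∑ x : G, F (pr x) = _ at h1
    rw [h1, mul_sum]
    refine sum_congr rfl fun z _ => ?_
    congr 1
    rw [sum_const, nsmul_eq_mul, mul_one, hm, eq_div_iff hcardAb.ne']
    exact_mod_cast R2.H402.card_fiber (fun g : G => pr g) pr_mul pr_surj z
  have hEn : ∀ c' : G → ℝ, En c' v = m * ∑ g, c' g * R (pr g) := by
    intro c'
    unfold En
    rw [mul_sum]
    refine sum_congr rfl fun g _ => ?_
    have h1 : ∑ x, (v (x * g) - v x) ^ 2 = m * R (pr g) := by
      rw [hR]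
      simp only
      rw [← hfib (fun z => (V (z + pr g) - V z) ^ 2)]
      refine sum_congr rfl fun x _ => ?_
      rw [hV, hV, pr_mul]
    rw [h1]; ring
  have e1 : En (fun _ => 1) v = m * (m * ∑ t, R t) := by
    rw [hEn]
    simp only [one_mul]
    rw [hfib R]
  have e2 : m * ∑ t, cb t * R t ≤ En c v := by
    rw [hEn]
    refine mul_le_mul_of_nonneg_left ?_ hm0.le
    have h1 := R2.H402.sum_coset (G := G) c R
    change ∑ g, c g * R (pr g) = ∑ z, (∑ g with pr g = z, c g) * R z at h1
    rw [h1]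
    refine sum_le_sum fun z _ => mul_le_mul_of_nonneg_right ?_ (hRn z)
    simp only [hcb]
    split_ifs
    · exact sum_nonneg fun g _ => hc g
    · exact le_rfl
  have hD : ∑ x, ∑ y, (V x - V y) ^ 2 = ∑ t, R t := by
    have := hAb (fun _ => 1)
    simpa using this
  have hE : ∑ x, ∑ y, cb (x - y) * (V x - V y) ^ 2 = ∑ t, cb t * R t := by
    rw [← hAb cb]
    refine sum_congr rfl fun x _ => sum_congr rfl fun y _ => ?_
    have h1 : x - y = -(y - x) := by abel
    rw [h1, hcbs]
  rw [hD, hE] at hmain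
  have hpush : phi (fun x y : G => c (x⁻¹ * y)) * Fintype.card G ≤
      phi (fun x y : Ab G => cb (x - y)) * Fintype.card (Ab G) := R2.H402.phi_push hc hs
  have hpush' : phi (fun x y : G => c (x⁻¹ * y)) * m ≤ phi (fun x y : Ab G => cb (x - y)) := by
    rw [hm, mul_div_assoc', div_le_iff₀ hcardAb]
    exact hpush
  have hRs : 0 ≤ ∑ t, R t := sum_nonneg fun t _ => hRn t
  calc phi (fun x y : G => c (x⁻¹ * y)) * En (fun _ => 1) v
      = m * ((phi (fun x y : G => c (x⁻¹ * y)) * m) * ∑ t, R t) := by rw [e1]; ring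
    _ ≤ m * (phi (fun x y : Ab G => cb (x - y)) * ∑ t, R t) :=
        mul_le_mul_of_nonneg_left (mul_le_mul_of_nonneg_right hpush' hRs) hm0.le
    _ ≤ m * (2 * ∑ t, cb t * R t) := mul_le_mul_of_nonneg_left hmain hm0.le
    _ = 2 * (m * ∑ t, cb t * R t) := by ring
    _ ≤ 2 * En c v := by linarith

end parts

open Classical in
/-- **The spectral inequality for rational conjugation invariant weights.** -/
theorem spectral_rat {G : Type*} [Group G] [Fintype G] [DecidableEq G] {c : G → ℝ}
    (hc : ∀ g, 0 ≤ c g) (hs : ∀ g, c g⁻¹ = c g) (hcl : ∀ x g, c (x * g * x⁻¹) = c g)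
    (hr : ∀ k, Nat.Coprime k (Nat.card G) → ∀ g, c (g ^ k) = c g) {K : ℝ}
    (hK : 1 ≤ K)
    (hnl : ∀ α : G → ℂ, IsChr α → (∃ g, ‖α g‖ ≠ 1) →
      ∃ H : Subgroup G, H ≠ ⊤ ∧ ∑ g with g ∉ H, c g ≤ K * ∑ g, c g * (1 - (α g).re))
    (u : G → ℝ) :
    phi (fun x y : G => c (x⁻¹ * y)) * ∑ x, ∑ y, (u x - u y) ^ 2 ≤
      2 * K * ∑ x, ∑ y, c (x⁻¹ * y) * (u x - u y) ^ 2 := by
  let _ : Fintype (commutator G) := Fintype.ofFinite _
  rw [sum_sum_eq_En, sum_sum_eq_En_one, En_split c u, En_split (fun _ => 1) u, mul_add, mul_add]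
  have hEn0 : ∀ f, 0 ≤ En c f := fun f =>
    sum_nonneg fun g _ => mul_nonneg (hc g) (sum_nonneg fun x _ => sq_nonneg _)
  refine add_le_add ?_ ?_
  · refine (lin_spec hc hs hr (fun x h => av_mul u x h)).trans ?_
    have := hEn0 (av u)
    nlinarith
  · refine nonlin_spec hc hs hcl (by linarith) (fun α hα h1 => ?_) (fun x => sum_sub_av u x)
    obtain ⟨H, hH, hcut⟩ := hnl α hα h1
    have h5 := R2.H402.phi_le_subgroup hc hH
    linarith

end Vale.Agent.P318.R2.H867
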